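/-
Row 269, front end T0' (S0511), HOST-FREE LEAF  LF-T0p-Lift :  lifting the foliation chart to the universal covers.        Sub-captain: helper113.
Pure topology (Mathlib only).     (P2 geometry.tex l.100-158 uses `hleaf_ess` for the degree; here the degree is `±1` because of the circles `δ = const < η`; `hleaf_ess` is not used.)

NOTATION.  `X = AddCircle L × Ioo 0 π`.   `β : ℝ ≃ₜ Ioo 0 1` any homeomorphism (e.g. from `Real.arctan`/`Real.sigmoid`, `Homeomorph` of `ℝ` with `Ioo (-(π/2)) (π/2)` = `Real.tanOrderIso`, then affine;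
or `OrderIso.toHomeomorph`);  only `bb u := β u` appears in the statement (and NOTHING about `bb` is claimed except through the leaves).
PLAN.
(0) `t0p_lift_addCircle`, `t0p_lift_circle`: `IsCoveringMap.existsUnique_continuousMap_lifts` (Mathlib.Topology.Homotopy.Lifting) for `AddCircle.isCoveringMap_coe L`, `Circle.isCoveringMap_exp`; a real normed space is
    simply connected (contractible) and locally path connected; base point `0`, both coverings are onto.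
(1) `f (α, u) := (H (Circle.exp α, β u)).val : ℝ × ℝ → X` is an `IsLocalHomeomorph`: `Circle.isLocalHomeomorph_exp`, `IsLocalHomeomorph.prodMap` with `β.isLocalHomeomorph`, `H`, and `hUo.isOpenEmbedding_subtypeVal`.
    It is onto `U`;  `f x = f y ↔ x.2 = y.2 ∧ ∃ m : ℤ, x.1 = y.1 + m 2π`  (`Circle.exp_eq_exp`).
(2) `S` := lift of `x ↦ (f x).1` by (0).   `Z1 x := (S x, (f x).2) : ℝ × Ioo 0 π`;  `Prod.map (↑) id ∘ Z1 = f`, so `Z1` is an `IsLocalHomeomorph` (`IsLocalHomeomorph.of_comp`, `AddCircle.isLocalHomeomorph_coe`);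
    `Zr x := (S x, ((f x).2 : ℝ))` is `Prod.map id Subtype.val ∘ Z1`, again an `IsLocalHomeomorph`.
(3) degree: `S (α + 2π, u) - S (α, u) ∈ L ℤ` (`AddCircle.coe_eq_coe_iff_of_mem_Ico`/`QuotientAddGroup.eq`, `AddSubgroup.mem_zmultiples_iff`), continuous on the connected space `ℝ × ℝ`, so `= k L` with ONE `k : ℤ`
    (as in `t0p_const_of_int`).  By induction `S (α + m 2π, u) = S (α, u) + m k L`.
(4) `k d = 1` for some `d : ℤ`.  Fix `δ₀ ∈ (0, min η π)`.  `c s := H.symm ⟨((s : AddCircle L), δ₀), hstrip ..⟩`, continuous in `s : ℝ`, `L`-periodic.   `φ` := lift of `s ↦ (c s).1` by (0), `υ s := β.symm (c s).2`.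
    `φ (s + L) - φ s = d 2π` (constant as in (3)).   `f (φ s, υ s) = (s, δ₀)`, so `S (φ s, υ s) - s ∈ L ℤ`, constant `= m L`.   Compare at `s + L`:  `s + L + m L = S (φ s + d 2π, υ s) = s + m L + d k L`.
    Hence `k = 1 ∨ k = -1` (`Int.eq_one_or_neg_one_of_mul_eq_one`).
(5) `Z0 (α, u) := Zr (k α, u)` (`k = ±1`: composition with a homeomorphism).   Shift: `Zr (k α + k 2π, u) = Zr (k α, u) + (k k L, 0)`.
    Injective: `Z0 x = Z0 y ⟹ f .. = f .. ⟹ x.2 = y.2`, `k x.1 = k y.1 + m 2π`, then `m k L = 0`, `m = 0`.     `IsLocalHomeomorph.isOpenEmbedding_of_injective`.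
(6) leaves: `p ∈ val '' (H '' {x | x.2 = β u}) ↔ ∃ α, f (α, u) = p` (`Circle.exp` onto) `↔ ∃ α, f (k α, u) = p`.
(7) strip: `((s : AddCircle L), δ) ∈ U`, so `= f (α, u)`; `S (α, u) = s + m L`; shift `α` by `- m k 2π`.
-/
import Mathlib

set_option autoImplicit false

namespace Claimed.Agent.R269

open Real

theorem t0p_lift_addCircle {E : Type} [NormedAddCommGroup E] [NormedSpace ℝ E] (L : ℝ) (f : E → AddCircle L)
    (hf : Continuous f) : ∃ φ : E → ℝ, Continuous φ ∧ ∀ x, (φ x : AddCircle L) = f x := by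
  obtain ⟨e₀, he₀⟩ := QuotientAddGroup.mk_surjective (f 0)
  obtain ⟨F, ⟨-, hF⟩, -⟩ := (AddCircle.isCoveringMap_coe L).existsUnique_continuousMap_lifts ⟨f, hf⟩ (0 : E) e₀ he₀
  exact ⟨F, F.continuous, fun x => congrFun hF x⟩

theorem t0p_lift_circle {E : Type} [NormedAddCommGroup E] [NormedSpace ℝ E] (f : E → Circle)
    (hf : Continuous f) : ∃ φ : E → ℝ, Continuous φ ∧ ∀ x, Circle.exp (φ x) = f x := by
  obtain ⟨F, ⟨-, hF⟩, -⟩ := Circle.isCoveringMap_exp.existsUnique_continuousMap_lifts ⟨f, hf⟩ (0 : E)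
    (Complex.arg (f 0)) (Circle.exp_arg (f 0))
  exact ⟨F, F.continuous, fun x => congrFun hF x⟩

/-- a continuous function with values in `c ℤ` on a preconnected space is constant. -/
theorem t0p_const_of_int' {E : Type} [TopologicalSpace E] [PreconnectedSpace E] (c : ℝ) (f : E → ℝ)
    (hf : Continuous f) (hint : ∀ q, ∃ n : ℤ, f q = n * c) : ∃ n : ℤ, ∀ q, f q = n * c := by
  by_cases hc : c = 0
  · refine ⟨0, fun q => ?_⟩
    obtain ⟨n, hn⟩ := hint q
    rw [hn, hc]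
    simp
  rcases isEmpty_or_nonempty E with hE | ⟨⟨q₀⟩⟩
  · exact ⟨0, fun q => (hE.false q).elim⟩
  obtain ⟨n₀, hn₀⟩ := hint q₀
  refine ⟨n₀, fun q => ?_⟩
  -- `g = f / c` is continuous and integer valued
  set g : E → ℝ := fun q => f q / c with hg
  have hgc : Continuous g := hf.div_const c
  have hgi : ∀ q, ∃ n : ℤ, g q = n := by
    intro q
    obtain ⟨n, hn⟩ := hint q
    exact ⟨n, by simp only [hg]; rw [hn]; field_simp⟩
  have key : ∀ q q' : E, ¬ g q < g q' := by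
    intro q q' hlt
    obtain ⟨n, hn⟩ := hgi q
    obtain ⟨n', hn'⟩ := hgi q'
    have hnn : n < n' := by
      rw [hn, hn'] at hlt
      exact_mod_cast hlt
    have hnn' : (n : ℝ) + 1 ≤ n' := by exact_mod_cast hnn
    have hmem : (n : ℝ) + 1 / 2 ∈ Set.Icc (g q) (g q') := by
      rw [hn, hn']
      constructor <;> linarith
    obtain ⟨p, hp⟩ := intermediate_value_univ q q' hgc hmem
    obtain ⟨m, hm⟩ := hgi p
    rw [hm] at hp
    have h2 : (2 * m : ℝ) = 2 * n + 1 := by linarith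
    have h3 : (2 * m : ℤ) = 2 * n + 1 := by exact_mod_cast h2
    omega
  have e : g q = g q₀ := le_antisymm (not_lt.1 (key q₀ q)) (not_lt.1 (key q q₀))
  simp only [hg] at e
  rw [hn₀] at e
  field_simp at e
  rw [e, mul_comm]

theorem t0p_lh_prodMap {X Y X' Y' : Type} [TopologicalSpace X] [TopologicalSpace Y] [TopologicalSpace X']
    [TopologicalSpace Y'] {f : X → Y} {g : X' → Y'} (hf : IsLocalHomeomorph f) (hg : IsLocalHomeomorph g) :
    IsLocalHomeomorph (Prod.map f g) := by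
  rintro ⟨x, y⟩
  obtain ⟨e₁, h1, rfl⟩ := hf x
  obtain ⟨e₂, h2, rfl⟩ := hg y
  exact ⟨e₁.prod e₂, ⟨h1, h2⟩, rfl⟩

theorem t0p_lift_coe_eq {L a b : ℝ} (e : (a : AddCircle L) = b) : ∃ k : ℤ, b = a + k * L := by
  rw [QuotientAddGroup.eq, AddSubgroup.mem_zmultiples_iff] at e
  obtain ⟨k, hk⟩ := e
  refine ⟨k, ?_⟩
  rw [zsmul_eq_mul] at hk
  linarith

theorem t0p_lift_shift_int (f : ℝ → ℝ) (P c : ℝ) (hs : ∀ t, f (t + P) = f t + c) (t : ℝ) (m : ℤ) :
    f (t + m * P) = f t + m * c := by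
  induction m using Int.induction_on with
  | zero => simp
  | succ i ih =>
    have e : t + ((i : ℤ) + 1 : ℤ) * P = t + (i : ℤ) * P + P := by push_cast; ring
    rw [e, hs, ih]
    push_cast
    ring
  | pred i ih =>
    have e : t + (-(i : ℤ) - 1 : ℤ) * P + P = t + (-(i : ℤ) : ℤ) * P := by push_cast; ring
    have := hs (t + (-(i : ℤ) - 1 : ℤ) * P)
    rw [e, ih] at this
    push_cast at this ⊢
    linarith

/-- steps (1)-(3): the lifted chart of unknown degree `k`. -/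
theorem t0p_lift_raw (L : ℝ) (hL : 0 < L) (U : Set (AddCircle L × Set.Ioo (0 : ℝ) π)) (hUo : IsOpen U)
    (H : Circle × Set.Ioo (0 : ℝ) 1 ≃ₜ U) (β : ℝ ≃ₜ Set.Ioo (0 : ℝ) 1) :
    ∃ (S : ℝ × ℝ → ℝ) (k : ℤ),
      IsLocalHomeomorph (fun x : ℝ × ℝ => ((S x, (((H (Circle.exp x.1, β x.2) : U) :
        AddCircle L × Set.Ioo (0 : ℝ) π).2 : ℝ)) : ℝ × ℝ)) ∧
      (∀ x : ℝ × ℝ, (S x : AddCircle L) = ((H (Circle.exp x.1, β x.2) : U) : AddCircle L × Set.Ioo (0 : ℝ) π).1) ∧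
      (∀ (α u : ℝ) (m : ℤ), S (α + m * (2 * π), u) = S (α, u) + m * k * L) := by
  set f : ℝ × ℝ → AddCircle L × Set.Ioo (0 : ℝ) π := fun x => ((H (Circle.exp x.1, β x.2) : U) :
    AddCircle L × Set.Ioo (0 : ℝ) π) with hf
  have hflh : IsLocalHomeomorph f := by
    have h1 : IsLocalHomeomorph (Prod.map Circle.exp β) :=
      t0p_lh_prodMap Circle.isCoveringMap_exp.isLocalHomeomorph β.isLocalHomeomorph
    have h2 : IsLocalHomeomorph (Subtype.val : U → AddCircle L × Set.Ioo (0 : ℝ) π) :=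
      hUo.isOpenEmbedding_subtypeVal.isLocalHomeomorph
    exact h2.comp (H.isLocalHomeomorph.comp h1)
  have hfc : Continuous f := hflh.continuous
  obtain ⟨S, hS, hSf⟩ := t0p_lift_addCircle L (fun x => (f x).1) (continuous_fst.comp hfc)
  have hZ1 : IsLocalHomeomorph (fun x : ℝ × ℝ => ((S x, (f x).2) : ℝ × Set.Ioo (0 : ℝ) π)) := by
    have hp : IsLocalHomeomorph (Prod.map ((↑) : ℝ → AddCircle L) (id : Set.Ioo (0 : ℝ) π → Set.Ioo (0 : ℝ) π)) :=
      t0p_lh_prodMap (AddCircle.isCoveringMap_coe L).isLocalHomeomorph (Homeomorph.refl _).isLocalHomeomorph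
    refine IsLocalHomeomorph.of_comp (g := Prod.map ((↑) : ℝ → AddCircle L) id) ?_ hp
      (hS.prodMk (continuous_snd.comp hfc))
    have : Prod.map ((↑) : ℝ → AddCircle L) (id : Set.Ioo (0 : ℝ) π → Set.Ioo (0 : ℝ) π) ∘
        (fun x : ℝ × ℝ => ((S x, (f x).2) : ℝ × Set.Ioo (0 : ℝ) π)) = f := by
      funext x
      exact Prod.ext (hSf x) rfl
    rw [this]
    exact hflh
  have hZr : IsLocalHomeomorph (fun x : ℝ × ℝ => ((S x, ((f x).2 : ℝ)) : ℝ × ℝ)) := by
    have hq : IsLocalHomeomorph (Prod.map (id : ℝ → ℝ) (Subtype.val : Set.Ioo (0 : ℝ) π → ℝ)) :=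
      t0p_lh_prodMap (Homeomorph.refl _).isLocalHomeomorph isOpen_Ioo.isOpenEmbedding_subtypeVal.isLocalHomeomorph
    exact hq.comp hZ1
  have hper : ∀ x : ℝ × ℝ, f (x.1 + 2 * π, x.2) = f x := by
    intro x
    simp only [hf, Circle.exp_add_two_pi]
  obtain ⟨k, hk⟩ := t0p_const_of_int' L (fun x : ℝ × ℝ => S (x.1 + 2 * π, x.2) - S x)
    ((hS.comp ((continuous_fst.add continuous_const).prodMk continuous_snd)).sub hS) (fun x => by
      have e : (S x : AddCircle L) = S (x.1 + 2 * π, x.2) := by rw [hSf, hSf, hper]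
      obtain ⟨k, hk⟩ := t0p_lift_coe_eq e
      exact ⟨k, by rw [hk]; ring⟩)
  refine ⟨S, k, hZr, hSf, fun α u m => ?_⟩
  have := t0p_lift_shift_int (fun a => S (a, u)) (2 * π) (k * L) (fun t => by
    have := hk (t, u)
    simp only at this
    linarith) α m
  rw [this]
  ring

/-- step (4): the degree is `±1`. -/
theorem t0p_lift_degree (L : ℝ) (hL : 0 < L) (U : Set (AddCircle L × Set.Ioo (0 : ℝ) π))
    (η : ℝ) (hη : 0 < η) (hstrip : ∀ p : AddCircle L × Set.Ioo (0 : ℝ) π, (p.2 : ℝ) < η → p ∈ U)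
    (H : Circle × Set.Ioo (0 : ℝ) 1 ≃ₜ U) (β : ℝ ≃ₜ Set.Ioo (0 : ℝ) 1) (S : ℝ × ℝ → ℝ) (k : ℤ) (hS : Continuous S)
    (h1 : ∀ x : ℝ × ℝ, (S x : AddCircle L) = ((H (Circle.exp x.1, β x.2) : U) : AddCircle L × Set.Ioo (0 : ℝ) π).1)
    (h2 : ∀ (α u : ℝ) (m : ℤ), S (α + m * (2 * π), u) = S (α, u) + m * k * L) : k = 1 ∨ k = -1 := by
  have hπ := pi_pos
  have hm0 : 0 < min η π / 2 := by
    have : 0 < min η π := lt_min hη hπ
    linarith
  have hm1 : min η π / 2 < π := by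
    have : min η π ≤ π := min_le_right _ _
    linarith
  have hm2 : min η π / 2 < η := by
    have : min η π ≤ η := min_le_left _ _
    linarith
  set d₀ : Set.Ioo (0 : ℝ) π := ⟨min η π / 2, hm0, hm1⟩ with hd₀
  set c : ℝ → Circle × Set.Ioo (0 : ℝ) 1 := fun s => H.symm ⟨((s : AddCircle L), d₀), hstrip _ hm2⟩ with hc
  have hcc : Continuous c := by
    apply H.symm.continuous.comp
    apply Continuous.subtype_mk
    exact (AddCircle.continuous_mk' L).prodMk continuous_const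
  have hcper : ∀ s, c (s + L) = c s := by
    intro s
    simp only [hc, AddCircle.coe_add_period]
  have hHc : ∀ s, ((H (c s) : U) : AddCircle L × Set.Ioo (0 : ℝ) π) = ((s : AddCircle L), d₀) := by
    intro s
    simp only [hc, Homeomorph.apply_symm_apply]
  obtain ⟨φ, hφ, hφc⟩ := t0p_lift_circle (fun s : ℝ => (c s).1) (continuous_fst.comp hcc)
  set υ : ℝ → ℝ := fun s => β.symm (c s).2 with hυ
  have hυc : Continuous υ := β.symm.continuous.comp (continuous_snd.comp hcc)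
  have hυper : ∀ s, υ (s + L) = υ s := by
    intro s
    simp only [hυ, hcper]
  obtain ⟨d, hd⟩ := t0p_const_of_int' (2 * π) (fun s : ℝ => φ (s + L) - φ s)
    ((hφ.comp (continuous_id.add continuous_const)).sub hφ) (fun s => by
      have e : Circle.exp (φ (s + L)) = Circle.exp (φ s) := by rw [hφc, hφc, hcper]
      obtain ⟨m, hm⟩ := Circle.exp_eq_exp.1 e
      exact ⟨m, by rw [hm]; ring⟩)
  have hSs : ∀ s, (S (φ s, υ s) : AddCircle L) = s := by
    intro s
    rw [h1]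
    simp only [hφc, hυ, Homeomorph.apply_symm_apply]
    have : ((c s).1, (c s).2) = c s := rfl
    rw [this, hHc]
  obtain ⟨m, hm⟩ := t0p_const_of_int' L (fun s : ℝ => S (φ s, υ s) - s)
    ((hS.comp (hφ.prodMk hυc)).sub continuous_id) (fun s => by
      obtain ⟨m, hm⟩ := t0p_lift_coe_eq (hSs s).symm
      exact ⟨m, by rw [hm]; ring⟩)
  have e0 := hm 0
  have eL := hm (0 + L)
  have eφ := hd 0
  have e1 : φ (0 + L) = φ 0 + d * (2 * π) := by linarith
  rw [hυper, e1, h2] at eL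
  have e2 : ((d * k : ℤ) : ℝ) * L = 1 * L := by
    push_cast
    linarith
  have e3 : ((d * k : ℤ) : ℝ) = 1 := mul_right_cancel₀ hL.ne' e2
  have e4 : d * k = 1 := by exact_mod_cast e3
  rw [mul_comm] at e4
  exact Int.eq_one_or_neg_one_of_mul_eq_one e4

/-- a homeomorphism `ℝ ≃ₜ (0, 1)`. -/
noncomputable def t0pBeta : ℝ ≃ₜ Set.Ioo (0 : ℝ) 1 :=
  (StrictMono.orderIsoOfSurjective (fun x : ℝ => (⟨Real.sigmoid x, Real.sigmoid_pos x, Real.sigmoid_lt_one x⟩ :
    Set.Ioo (0 : ℝ) 1)) (fun _ _ hab => Real.sigmoid_strictMono hab) (fun y => by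
      have : (y : ℝ) ∈ Set.range Real.sigmoid := by rw [Real.range_sigmoid]; exact y.2
      obtain ⟨x, hx⟩ := this
      exact ⟨x, Subtype.ext hx⟩)).toHomeomorph

/-- **the lifted chart.** -/
theorem t0p_lift (L : ℝ) (hL : 0 < L) (U : Set (AddCircle L × Set.Ioo (0 : ℝ) π)) (hUo : IsOpen U)
    (η : ℝ) (hη : 0 < η) (hstrip : ∀ p : AddCircle L × Set.Ioo (0 : ℝ) π, (p.2 : ℝ) < η → p ∈ U)
    (H : Circle × Set.Ioo (0 : ℝ) 1 ≃ₜ U) :
    ∃ (Z0 : ℝ × ℝ → ℝ × ℝ) (bb : ℝ → Set.Ioo (0 : ℝ) 1),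
      Topology.IsOpenEmbedding Z0 ∧ (∀ x, 0 < (Z0 x).2 ∧ (Z0 x).2 < π) ∧
      (∀ α u, Z0 (α + 2 * π, u) = Z0 (α, u) + (L, 0)) ∧
      (∀ (u : ℝ) (p : AddCircle L × Set.Ioo (0 : ℝ) π), p ∈ Subtype.val '' (H '' {x | x.2 = bb u}) ↔
        ∃ α, ((Z0 (α, u)).1 : AddCircle L) = p.1 ∧ (Z0 (α, u)).2 = p.2) ∧
      (∀ s δ : ℝ, 0 < δ → δ < η → δ < π → (s, δ) ∈ Set.range Z0) := by
  have hπ := pi_pos
  obtain ⟨S, k, hlh, hS1, hS2⟩ := t0p_lift_raw L hL U hUo H t0pBeta
  have hSc : Continuous S := continuous_fst.comp hlh.continuous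
  have hk := t0p_lift_degree L hL U η hη hstrip H t0pBeta S k hSc hS1 hS2
  have hkk : (k : ℝ) * k = 1 := by
    rcases hk with h | h <;> rw [h] <;> norm_num
  have hk0 : (k : ℝ) ≠ 0 := by
    intro h0
    rw [h0] at hkk
    norm_num at hkk
  set f : ℝ × ℝ → AddCircle L × Set.Ioo (0 : ℝ) π := fun x => ((H (Circle.exp x.1, t0pBeta x.2) : U) :
    AddCircle L × Set.Ioo (0 : ℝ) π) with hf
  have hfper : ∀ (a u : ℝ) (m : ℤ), f (a + m * (2 * π), u) = f (a, u) := by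
    intro a u m
    have : Circle.exp (a + m * (2 * π)) = Circle.exp a := Circle.exp_eq_exp.2 ⟨m, rfl⟩
    simp only [hf, this]
  have hfinj : ∀ x y : ℝ × ℝ, f x = f y → x.2 = y.2 ∧ ∃ m : ℤ, x.1 = y.1 + m * (2 * π) := by
    intro x y e
    have e1 := H.injective (Subtype.val_injective e)
    simp only [Prod.mk.injEq] at e1
    exact ⟨t0pBeta.injective e1.2, Circle.exp_eq_exp.1 e1.1⟩
  have hfsurj : ∀ p ∈ U, ∃ a u, f (a, u) = p := by
    intro p hp
    refine ⟨Complex.arg (H.symm ⟨p, hp⟩).1, t0pBeta.symm (H.symm ⟨p, hp⟩).2, ?_⟩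
    simp only [hf, Circle.exp_arg, Homeomorph.apply_symm_apply]
    have : ((H.symm ⟨p, hp⟩).1, (H.symm ⟨p, hp⟩).2) = H.symm ⟨p, hp⟩ := rfl
    rw [this, Homeomorph.apply_symm_apply]
  set Z0 : ℝ × ℝ → ℝ × ℝ := fun x => (S (k * x.1, x.2), ((f (k * x.1, x.2)).2 : ℝ)) with hZ0
  have hZ0lh : IsLocalHomeomorph Z0 :=
    hlh.comp (((Homeomorph.mulLeft₀ (k : ℝ) hk0).prodCongr (Homeomorph.refl ℝ)).isLocalHomeomorph)
  have hZ0f : ∀ x y : ℝ × ℝ, Z0 x = Z0 y → f (k * x.1, x.2) = f (k * y.1, y.2) := by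
    intro x y e
    simp only [hZ0, Prod.mk.injEq] at e
    refine Prod.ext ?_ (Subtype.ext e.2)
    have a1 := hS1 (k * x.1, x.2)
    have a2 := hS1 (k * y.1, y.2)
    rw [e.1] at a1
    exact a1.symm.trans a2
  have hinj : Function.Injective Z0 := by
    intro x y e
    obtain ⟨e2, m, hm⟩ := hfinj _ _ (hZ0f x y e)
    simp only at e2 hm
    have e1 : S (k * x.1, x.2) = S (k * y.1, y.2) := congrArg Prod.fst e
    rw [hm, e2, hS2] at e1
    have h0 : (m : ℝ) * k * L = 0 := by linarith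
    have hm0 : (m : ℝ) = 0 := by
      rcases mul_eq_zero.1 h0 with h | h
      · rcases mul_eq_zero.1 h with h | h
        · exact h
        · exact absurd h hk0
      · exact absurd h hL.ne'
    rw [hm0, zero_mul, add_zero] at hm
    exact Prod.ext (mul_left_cancel₀ hk0 hm) e2
  refine ⟨Z0, t0pBeta, hZ0lh.isOpenEmbedding_of_injective hinj, fun x => (f (k * x.1, x.2)).2.2, fun α u => ?_,
    fun u p => ?_, fun s δ h1 h2 h3 => ?_⟩
  · have e : (k : ℝ) * (α + 2 * π) = k * α + k * (2 * π) := by ring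
    simp only [hZ0, e, hS2, hfper, Prod.mk_add_mk, add_zero, hkk, one_mul]
  · constructor
    · rintro ⟨_, ⟨⟨z, b⟩, hb, rfl⟩, rfl⟩
      have hb' : b = t0pBeta u := hb
      subst hb'
      refine ⟨k * Complex.arg z, ?_⟩
      have e : (k : ℝ) * (k * Complex.arg z) = Complex.arg z := by rw [← mul_assoc, hkk, one_mul]
      simp only [hZ0, e, hS1, hf, Circle.exp_arg]
      exact ⟨trivial, trivial⟩
    · rintro ⟨α, e1, e2⟩
      refine ⟨H (Circle.exp (k * α), t0pBeta u), ⟨_, rfl, rfl⟩, ?_⟩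
      refine Prod.ext ?_ (Subtype.ext e2)
      rw [← e1]
      exact (hS1 (k * α, u)).symm
  · obtain ⟨a, u, e⟩ := hfsurj ((s : AddCircle L), ⟨δ, h1, h3⟩) (hstrip _ h2)
    have e1 : (S (a, u) : AddCircle L) = s := by
      rw [hS1]
      exact congrArg Prod.fst e
    obtain ⟨m, hm⟩ := t0p_lift_coe_eq e1
    refine ⟨(k * (a + ((m * k : ℤ) : ℝ) * (2 * π)), u), ?_⟩
    have e2 : (k : ℝ) * (k * (a + ((m * k : ℤ) : ℝ) * (2 * π))) = a + ((m * k : ℤ) : ℝ) * (2 * π) := by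
      rw [← mul_assoc, hkk, one_mul]
    simp only [hZ0, e2, hS2, hfper, e]
    rw [hm]
    push_cast
    congr 1
    rw [mul_assoc (m : ℝ), hkk, mul_one]

end Claimed.Agent.R269
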