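/-
Row 269, front end T0' (S0511), LEAF  LF-T0p-Dict :  the frozen `BilliardStep` in the coordinates (incoming angle, outgoing angle).        Sub-captain: helper113.
Uses T0/Model.lean, T0/Next.lean (sorry-free), Prelude Def_0439.

The state `(s, δ)` (foot point `γ s`, angle `δ ∈ (0, π)` with the tangent) corresponds to `(a, b) = (ν s - δ, ν s + δ) ∈ wedge`.
PLAN.   `ψ = ν s`, `ψ' = ν s'`, `a = ψ - δ`, `b = ψ + δ`.
(1) `t0p_rot2_evec`: `rot2 δ (evec ψ) = evec (ψ + δ)` (`cos_add`, `sin_add`).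
(2) `t0p_reflect`: `(2 * dot2 (evec b) (evec ψ')) • evec ψ' - evec b = evec (2 ψ' - b)`  (`dot2 (evec b) (evec ψ') = cos (b - ψ')`; write `b = ψ' + x`, expand).
(3) `t0p_evec_inj`: `evec x = evec y ↔ ∃ n : ℤ, x = y + n 2π`  (`Real.cos_eq_cos_iff`/`Real.Angle.cos_sin_inj` + `Real.Angle.angle_eq_iff_two_pi_dvd_sub`).
    So the reflection law says  `ψ' + δ' = 2 ψ' - b + n 2π`, i.e. `b = ψ' - δ' + n 2π`.
(4) `t0p_chord`: for `ψ, ψ'` with `0 < ψ' - ψ < 2π` (mod nothing) and `b` with `ψ < b < ψ + π`: if `bpt h ψ' · n_b = bpt h ψ · n_b` then `bpt h ψ' = bpt h ψ + t • evec b` with `t > 0`.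
    Proof: `x = (x · n_b) n_b + (x · e_b) e_b`, so `bpt h ψ' - bpt h ψ = t e_b`, `t = (bpt h ψ' - bpt h ψ) · e_b`;  `t0_bpt_dot_lt` (`ψ' ≠ ψ + n 2π`): `(bpt h ψ' - bpt h ψ) · n_ψ < 0`, i.e. `t sin (ψ - b) < 0`, `sin (ψ - b) < 0`.
(⇐) `lineMap h (a, b) = (b, c)`, `c = nxt h a b`, `b < c < b + 2π`, `pIn h b c = pOut h a b` (`t0_nxt_spec`), i.e. `bpt h ((b+c)/2) · n_b = bpt h ψ · n_b` (`t0_pIn_eq`, `t0_pOut_eq`), `(b+c)/2 = ψ' + n 2π`;
    `bpt h (ψ' + n 2π) = bpt h ψ'`;  (4) with `(b+c)/2 ∈ (b, b + π)`;   reflection law by (2), (3).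
(⇒) from the chord: `bpt h ψ' · n_b = bpt h ψ · n_b` (`e_b · n_b = 0`).  From (3): `b = ψ' - δ' + n 2π`; put `c = ψ' + δ' + n 2π ∈ (b, b + 2π)`: `pIn h b c = bpt h (ψ' + n 2π) · n_b = pOut h a b`;  `t0_nxt_unique`.
-/
import Claimed.Agent.R269.T0.Chord
import Claimed.Prelude.Def_0439

set_option autoImplicit false

namespace Claimed.Agent.R269

open Real

theorem t0p_rot2_evec (δ ψ : ℝ) : Claims.C0439.rot2 δ (evec ψ) = evec (ψ + δ) := by
  simp only [Claims.C0439.rot2, evec, sin_add, cos_add]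
  ext
  · simp only
    ring
  · simp only
    ring

theorem t0p_reflect (b ψ' : ℝ) :
    (2 * Claims.C0439.dot2 (evec b) (evec ψ')) • evec ψ' - evec b = evec (2 * ψ' - b) := by
  set x := b - ψ' with hx
  have e1 : b = ψ' + x := by rw [hx]; ring
  have e2 : 2 * ψ' - b = ψ' - x := by rw [hx]; ring
  rw [e2, e1]
  have hcs := sin_sq_add_cos_sq ψ'
  have h1 : Claims.C0439.dot2 (evec (ψ' + x)) (evec ψ') = cos x := by
    simp only [Claims.C0439.dot2, evec, sin_add, cos_add]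
    linear_combination (cos x) * hcs
  rw [h1]
  ext
  · simp only [evec, Prod.fst_sub, Prod.smul_fst, smul_eq_mul, sin_sub, sin_add]
    ring
  · simp only [evec, Prod.snd_sub, Prod.smul_snd, smul_eq_mul, cos_sub, cos_add]
    ring

theorem t0p_evec_inj (x y : ℝ) : evec x = evec y ↔ ∃ n : ℤ, x = y + n * (2 * π) := by
  constructor
  · exact t0_evec_inj
  · rintro ⟨n, rfl⟩
    exact t0_evec_add_int y n

theorem t0p_bpt_add_int {h : ℝ → ℝ} (hs : IsSupport h) (ψ : ℝ) (n : ℤ) : bpt h (ψ + n * (2 * π)) = bpt h ψ := by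
  unfold bpt
  rw [hs.add_int, t0_nvec_add_int, t0_evec_add_int]
  have : deriv h (ψ + n * (2 * π)) = deriv h ψ := hs.deriv_periodic.int_mul n ψ
  rw [this]

theorem t0p_chord {h : ℝ → ℝ} (hs : IsSupport h) (ψ ψ' b : ℝ) (h1 : ψ < ψ') (h2 : ψ' < ψ + 2 * π) (h3 : ψ < b) (h4 : b < ψ + π)
    (e : dotR (bpt h ψ') (nvec b) = dotR (bpt h ψ) (nvec b)) :
    ∃ t : ℝ, 0 < t ∧ bpt h ψ' = bpt h ψ + t • evec b :=
  t0_chord_fwd hs ψ ψ' b h1 h2 h3 h4 e

/-- **dictionary.** -/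
theorem t0p_dict {h ν : ℝ → ℝ} {γ : ℝ → ℝ × ℝ} (hs : IsSupport h) (hpt : ∀ t, γ t = bpt h (ν t))
    (htan : ∀ t, deriv γ t = evec (ν t)) (s δ s' δ' : ℝ) (h1 : 0 < δ) (h2 : δ < π) (h3 : 0 < δ') (h4 : δ' < π) :
    Claims.C0439.BilliardStep γ s δ s' δ' ↔
      ∃ n : ℤ, lineMap h (ν s - δ, ν s + δ) = (ν s' - δ' + n * (2 * π), ν s' + δ' + n * (2 * π)) := by
  have hw : (ν s - δ, ν s + δ) ∈ wedge := ⟨by simp only; linarith, by simp only; linarith⟩
  have hmid : (ν s - δ + (ν s + δ)) / 2 = ν s := by ring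
  unfold Claims.C0439.BilliardStep
  simp only [htan, t0p_rot2_evec, t0p_reflect, hpt]
  constructor
  · rintro ⟨a, ha, e1, e2⟩
    obtain ⟨n, hn⟩ := (t0p_evec_inj _ _).1 e2
    refine ⟨n, ?_⟩
    have hb : ν s + δ = ν s' - δ' + n * (2 * π) := by linarith
    have hnx : nxt h (ν s - δ) (ν s + δ) = ν s' + δ' + n * (2 * π) := by
      apply t0_nxt_unique hs hw (by linarith) (by linarith)
      rw [t0_pIn_eq, t0_pOut_eq, hmid]
      have : (ν s + δ + (ν s' + δ' + n * (2 * π))) / 2 = ν s' + n * (2 * π) := by linarith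
      rw [this, t0p_bpt_add_int hs, e1, t0_dot_add, t0_dot_smul, t0_dot_en]
      simp
    simp only [lineMap]
    rw [hnx, ← hb]
  · rintro ⟨n, hn⟩
    simp only [lineMap, Prod.mk.injEq] at hn
    obtain ⟨hb, hc⟩ := hn
    obtain ⟨n1, n2, n3⟩ := t0_nxt_spec hs hw
    rw [t0_pIn_eq, t0_pOut_eq, hmid, hc] at n3
    have hm : (ν s + δ + (ν s' + δ' + n * (2 * π))) / 2 = ν s' + n * (2 * π) := by linarith
    rw [hm] at n3
    obtain ⟨t, ht, e⟩ := t0_chord_fwd hs (ν s) (ν s' + n * (2 * π)) (ν s + δ) (by linarith) (by linarith) (by linarith)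
      (by linarith) n3
    rw [t0p_bpt_add_int hs] at e
    refine ⟨t, ht, e, ?_⟩
    rw [t0p_evec_inj]
    exact ⟨n, by linarith⟩

end Claimed.Agent.R269
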