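/-
Row 269, front end T0' (S0511):  DEFINITIONS.        Sub-captain: helper113.

ROUTE  (replaces P2 = Continuous-Phase-Foliations..., geometry.tex, Prop. "graph-collar"; shorter):
  frozen hypotheses  ⟹ (Dict, Lift, LiftG)  `LiftedFol h Z G`  ⟹ (Fol, Pair, Plateau, Graph)  every leaf is a graph  ⟹ (Collar)  `IsPhaseCollar h g`  ⟹ (T0c)  `GlancingRigid h`.

STATES are pairs `(a, b) ∈ wedge` (incoming angle, outgoing angle), the lifted billiard map is `lineMap h (a, b) = (b, nxt h a b)` (T0/Next.lean).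
`Z (α, u)` = point with parameter `α ∈ ℝ` of the lifted leaf `u ∈ ℝ`;   `G (α, u)` = the dynamics on the leaf `u` in the parameter `α`.
-/
import Claimed.Agent.R269.T0.Next

set_option autoImplicit false

namespace Claimed.Agent.R269

open Real

/-- a lifted continuous foliation of a neighbourhood of the glancing boundary by invariant curves of degree one. -/
structure LiftedFol (h : ℝ → ℝ) (Z : ℝ × ℝ → ℝ × ℝ) (G : ℝ × ℝ → ℝ) : Prop where
  emb : Topology.IsOpenEmbedding Z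
  mem : ∀ x, Z x ∈ wedge
  Z_shift : ∀ α u, Z (α + 2 * π, u) = Z (α, u) + (2 * π, 2 * π)
  G_cont : Continuous G
  G_shift : ∀ α u, G (α + 2 * π, u) = G (α, u) + 2 * π
  G_mono : ∀ u, StrictMono fun α => G (α, u)
  G_surj : ∀ u, Function.Surjective fun α => G (α, u)
  conj : ∀ α u, lineMap h (Z (α, u)) = Z (G (α, u), u)
  strip : ∃ η : ℝ, 0 < η ∧ ∀ w ∈ wedge, w.2 - w.1 < η → w ∈ Set.range Z

/-- iterates of the leaf dynamics. -/
def foIt (G : ℝ × ℝ → ℝ) (u : ℝ) (j : ℕ) (α : ℝ) : ℝ := (fun a => G (a, u))^[j] α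

/-- `ρ u` is the translation number of the dynamics on the leaf `u`. -/
def IsRot (G : ℝ × ℝ → ℝ) (ρ : ℝ → ℝ) : Prop := ∀ (u : ℝ) (j : ℕ) (α : ℝ), |foIt G u j α - α - j * ρ u| ≤ 2 * π

/-! ### the space of pairs of points on two distinct leaves `u < u + exp v` -/

/-- `((α, u), (β, v))`: the points `Z (α, u)` and `Z (β, u + exp v)`. -/
abbrev PrSp : Type := (ℝ × ℝ) × (ℝ × ℝ)

noncomputable def prU (q : PrSp) : ℝ := q.1.2 + exp q.2.2

noncomputable def prPsi (Z : ℝ × ℝ → ℝ × ℝ) (q : PrSp) : (ℝ × ℝ) × (ℝ × ℝ) := (Z q.1, Z (q.2.1, prU q))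

/-- the difference of the two states. -/
noncomputable def prD (Z : ℝ × ℝ → ℝ × ℝ) (q : PrSp) : ℝ × ℝ := Z (q.2.1, prU q) - Z q.1

/-- the pair dynamics. -/
noncomputable def prK (G : ℝ × ℝ → ℝ) (q : PrSp) : PrSp := ((G q.1, q.1.2), (G (q.2.1, prU q), q.2.2))

/-- the simultaneous deck translation. -/
noncomputable def prS (n : ℤ) (q : PrSp) : PrSp := ((q.1.1 + n * (2 * π), q.1.2), (q.2.1 + n * (2 * π), q.2.2))

end Claimed.Agent.R269
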