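/-
Row 269, front end T0' (S0511), LEAF  LF-T0p-Fol :  elementary consequences of `LiftedFol`.        Sub-captain: helper113.
Uses T0p/Defs.lean, T0/Next.lean (sorry-free).

HINTS.  `foIt G u (j+1) α = G (foIt G u j α, u)` is `Function.iterate_succ_apply'`.   All iterate statements by induction on `j`.
* bounds: `α ↦ (Z (α, u)).i - α` is `2π`-periodic by `Z_shift`; it is continuous in `(α, u)`, hence bounded on the compact set `[0, 2π] × S`.
* `t0p_twist`: `Z x ≠ Z y` (`emb.injective`), equal second coordinates, so the first coordinates differ; `t0_nxt_anti`.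
* `t0p_rot_exists`: `f_u x := G (2π x, u) / (2π)` is a `CircleDeg1Lift` (`G_mono`, `G_shift`), `(f_u ^ j) x = foIt G u j (2π x) / (2π)` (induction, `CircleDeg1Lift.coe_pow`),
  `ρ u := 2π τ(f_u)`;   for `g = f_u ^ j`: `τ g = j τ f_u` (`translationNumber_pow`), `g x - x < τ g + 1` (`map_lt_add_translationNumber_add_one`) and `τ g ≤ ⌈g x - x⌉ < g x - x + 1`
  (`translationNumber_le_ceil_sub`, `Int.ceil_lt_add_one`).
* `t0p_rot_lt`: if `α₀ + l 2π ≤ foIt q α₀` then by monotonicity and the shift `α₀ + n l 2π ≤ foIt (n q) α₀` for all `n`, so `n l 2π ≤ n q ρ + 2π` for all `n`, i.e. `l 2π ≤ q ρ`.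
-/
import Claimed.Agent.R269.T0p.Defs

set_option autoImplicit false

namespace Claimed.Agent.R269

open Real

variable {h : ℝ → ℝ} {Z : ℝ × ℝ → ℝ × ℝ} {G : ℝ × ℝ → ℝ}

theorem t0p_it_succ (G : ℝ × ℝ → ℝ) (u : ℝ) (j : ℕ) (α : ℝ) : foIt G u (j + 1) α = G (foIt G u j α, u) :=
  Function.iterate_succ_apply' _ _ _

theorem t0p_it_succ' (G : ℝ × ℝ → ℝ) (u : ℝ) (j : ℕ) (α : ℝ) : foIt G u (j + 1) α = foIt G u j (G (α, u)) :=
  Function.iterate_succ_apply _ _ _

theorem t0p_it_zero (G : ℝ × ℝ → ℝ) (u : ℝ) (α : ℝ) : foIt G u 0 α = α := rfl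

theorem t0p_it_add (G : ℝ × ℝ → ℝ) (u : ℝ) (i j : ℕ) (α : ℝ) : foIt G u (i + j) α = foIt G u i (foIt G u j α) :=
  Function.iterate_add_apply _ _ _ _

theorem t0p_it_cont (F : LiftedFol h Z G) (j : ℕ) : Continuous fun x : ℝ × ℝ => foIt G x.2 j x.1 := by
  induction j with
  | zero => exact continuous_fst
  | succ j ih =>
    simp only [t0p_it_succ]
    exact F.G_cont.comp (ih.prodMk continuous_snd)

theorem t0p_it_mono (F : LiftedFol h Z G) (u : ℝ) (j : ℕ) : StrictMono (foIt G u j) :=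
  (F.G_mono u).iterate j

theorem t0p_it_surj (F : LiftedFol h Z G) (u : ℝ) (j : ℕ) : Function.Surjective (foIt G u j) :=
  (F.G_surj u).iterate j

theorem t0p_shift_int_gen {M : Type} [AddCommGroup M] (f : ℝ → M) (L : ℝ) (c : M) (hs : ∀ t, f (t + L) = f t + c)
    (t : ℝ) (m : ℤ) : f (t + m * L) = f t + m • c := by
  induction m using Int.induction_on with
  | zero => simp
  | succ i ih =>
    have e : t + ((i : ℤ) + 1 : ℤ) * L = t + (i : ℤ) * L + L := by push_cast; ring
    rw [e, hs, ih, add_smul, one_smul, add_assoc]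
  | pred i ih =>
    have e : t + (-(i : ℤ) - 1 : ℤ) * L + L = t + (-(i : ℤ) : ℤ) * L := by push_cast; ring
    have := hs (t + (-(i : ℤ) - 1 : ℤ) * L)
    rw [e, ih] at this
    rw [sub_smul, one_smul, ← add_sub_assoc, this]
    abel

theorem t0p_G_shift_int (F : LiftedFol h Z G) (α u : ℝ) (n : ℤ) : G (α + n * (2 * π), u) = G (α, u) + n * (2 * π) := by
  have := t0p_shift_int_gen (fun a => G (a, u)) (2 * π) (2 * π) (fun t => F.G_shift t u) α n
  simpa using this

theorem t0p_it_shift_int (F : LiftedFol h Z G) (u : ℝ) (j : ℕ) (α : ℝ) (n : ℤ) :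
    foIt G u j (α + n * (2 * π)) = foIt G u j α + n * (2 * π) := by
  induction j with
  | zero => rfl
  | succ j ih => rw [t0p_it_succ, ih, t0p_G_shift_int F, t0p_it_succ]

theorem t0p_Z_shift_int (F : LiftedFol h Z G) (α u : ℝ) (n : ℤ) :
    Z (α + n * (2 * π), u) = Z (α, u) + ((n * (2 * π), n * (2 * π)) : ℝ × ℝ) := by
  have := t0p_shift_int_gen (fun a => Z (a, u)) (2 * π) ((2 * π, 2 * π) : ℝ × ℝ) (fun t => F.Z_shift t u) α n
  simpa using this

theorem t0p_Z_fst_G (F : LiftedFol h Z G) (α u : ℝ) : (Z (G (α, u), u)).1 = (Z (α, u)).2 := by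
  rw [← F.conj]
  rfl

theorem t0p_Z_snd_G (F : LiftedFol h Z G) (α u : ℝ) : (Z (G (α, u), u)).2 = nxt h (Z (α, u)).1 (Z (α, u)).2 := by
  rw [← F.conj]
  rfl

/-- iterating the billiard map along a leaf. -/
theorem t0p_lineMap_iter (F : LiftedFol h Z G) (α u : ℝ) (j : ℕ) : (lineMap h)^[j] (Z (α, u)) = Z (foIt G u j α, u) := by
  induction j with
  | zero => rfl
  | succ j ih => rw [Function.iterate_succ_apply', ih, F.conj, t0p_it_succ]

/-- a continuous function on `ℝ × ℝ`, periodic in the first variable, is bounded on `ℝ × S`, `S` compact. -/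
theorem t0p_bound_gen (f : ℝ × ℝ → ℝ) (hf : Continuous f) (hp : ∀ α u, f (α + 2 * π, u) = f (α, u)) (S : Set ℝ)
    (hS : IsCompact S) : ∃ C : ℝ, ∀ u ∈ S, ∀ α, |f (α, u)| ≤ C := by
  have hπ : (0 : ℝ) < 2 * π := by positivity
  obtain ⟨C, hC⟩ := (isCompact_Icc.prod hS).exists_bound_of_continuousOn (f := f) (s := Set.Icc 0 (2 * π) ×ˢ S)
    hf.continuousOn
  refine ⟨C, fun u hu α => ?_⟩
  have hper : Function.Periodic (fun a => f (a, u)) (2 * π) := fun a => hp a u
  obtain ⟨y, hy, e⟩ := hper.exists_mem_Ico₀ hπ α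
  rw [e]
  exact hC (y, u) ⟨⟨hy.1, hy.2.le⟩, hu⟩

theorem t0p_Z_bound (F : LiftedFol h Z G) (S : Set ℝ) (hS : IsCompact S) :
    ∃ C : ℝ, ∀ u ∈ S, ∀ α, |(Z (α, u)).1 - α| ≤ C ∧ |(Z (α, u)).2 - α| ≤ C := by
  have hZ := F.emb.continuous
  obtain ⟨C₁, h1⟩ := t0p_bound_gen (fun x => (Z x).1 - x.1) ((continuous_fst.comp hZ).sub continuous_fst)
    (fun α u => by simp only [F.Z_shift, Prod.fst_add]; ring) S hS
  obtain ⟨C₂, h2⟩ := t0p_bound_gen (fun x => (Z x).2 - x.1) ((continuous_snd.comp hZ).sub continuous_fst)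
    (fun α u => by simp only [F.Z_shift, Prod.snd_add]; ring) S hS
  exact ⟨max C₁ C₂, fun u hu α => ⟨(h1 u hu α).trans (le_max_left _ _), (h2 u hu α).trans (le_max_right _ _)⟩⟩

theorem t0p_G_bound (F : LiftedFol h Z G) (S : Set ℝ) (hS : IsCompact S) : ∃ C : ℝ, ∀ u ∈ S, ∀ α, |G (α, u) - α| ≤ C :=
  t0p_bound_gen (fun x => G x - x.1) (F.G_cont.sub continuous_fst)
    (fun α u => by simp only [F.G_shift]; ring) S hS

/-- **twist rule**: two distinct states with the same outgoing angle. -/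
theorem t0p_twist (F : LiftedFol h Z G) (hs : IsSupport h) (x y : ℝ × ℝ) (hxy : x ≠ y) (e : (Z x).2 = (Z y).2) :
    ((Z y).1 - (Z x).1) * ((lineMap h (Z y)).2 - (lineMap h (Z x)).2) < 0 := by
  have hne : (Z x).1 ≠ (Z y).1 := fun h1 => hxy (F.emb.injective (Prod.ext h1 e))
  have hx : ((Z x).1, (Z y).2) ∈ wedge := by rw [← e]; exact F.mem x
  have hy : ((Z y).1, (Z y).2) ∈ wedge := F.mem y
  simp only [lineMap]
  rw [e]
  rcases lt_or_gt_of_ne hne with hlt | hgt
  · have := t0_nxt_anti hs hx hy hlt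
    nlinarith
  · have := t0_nxt_anti hs hy hx hgt
    nlinarith

/-- the leaf dynamics as a `CircleDeg1Lift`. -/
noncomputable def t0pLift (F : LiftedFol h Z G) (u : ℝ) : CircleDeg1Lift where
  toFun x := G (2 * π * x, u) / (2 * π)
  monotone' := by
    intro x y hxy
    have hπ : (0 : ℝ) < 2 * π := by positivity
    have : G (2 * π * x, u) ≤ G (2 * π * y, u) := (F.G_mono u).monotone (by nlinarith)
    exact div_le_div_of_nonneg_right this hπ.le
  map_add_one' := by
    intro x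
    have hπ : (2 * π : ℝ) ≠ 0 := by positivity
    have e : 2 * π * (x + 1) = 2 * π * x + 2 * π := by ring
    simp only [e, F.G_shift]
    field_simp

theorem t0pLift_apply (F : LiftedFol h Z G) (u x : ℝ) : t0pLift F u x = G (2 * π * x, u) / (2 * π) := rfl

theorem t0pLift_pow (F : LiftedFol h Z G) (u : ℝ) (j : ℕ) (x : ℝ) :
    (t0pLift F u ^ j) x = foIt G u j (2 * π * x) / (2 * π) := by
  have hπ : (2 * π : ℝ) ≠ 0 := by positivity
  induction j with
  | zero =>
    simp only [pow_zero, CircleDeg1Lift.coe_one, id, t0p_it_zero]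
    field_simp
  | succ j ih =>
    rw [pow_succ', CircleDeg1Lift.mul_apply, ih, t0pLift_apply, t0p_it_succ]
    congr 3
    field_simp

theorem t0p_rot_exists (F : LiftedFol h Z G) : ∃ ρ : ℝ → ℝ, IsRot G ρ := by
  have hπ : (0 : ℝ) < 2 * π := by positivity
  refine ⟨fun u => 2 * π * CircleDeg1Lift.translationNumber (t0pLift F u), fun u j α => ?_⟩
  set g := t0pLift F u ^ j with hg
  set x := α / (2 * π) with hx
  have hα : 2 * π * x = α := by rw [hx]; field_simp
  have h1 : CircleDeg1Lift.translationNumber g = j * CircleDeg1Lift.translationNumber (t0pLift F u) :=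
    CircleDeg1Lift.translationNumber_pow _ j
  have h2 : g x = foIt G u j α / (2 * π) := by rw [hg, t0pLift_pow, hα]
  have h3 := g.floor_sub_le_translationNumber x
  have h4 := g.translationNumber_le_ceil_sub x
  have h5 := Int.sub_one_lt_floor (g x - x)
  have h6 := Int.ceil_lt_add_one (g x - x)
  have h7 : foIt G u j α - α - j * (2 * π * CircleDeg1Lift.translationNumber (t0pLift F u))
      = 2 * π * (g x - x - CircleDeg1Lift.translationNumber g) := by
    rw [h1, h2, hx]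
    field_simp
  rw [h7, abs_mul, abs_of_pos hπ]
  have h8 : |g x - x - CircleDeg1Lift.translationNumber g| ≤ 1 := by
    rw [abs_le]
    constructor <;> linarith
  nlinarith

theorem t0p_it_mul_le (F : LiftedFol h Z G) (u : ℝ) (q : ℕ) (l : ℤ) (α : ℝ) (hle : α + l * (2 * π) ≤ foIt G u q α)
    (n : ℕ) : α + n * (l * (2 * π)) ≤ foIt G u (n * q) α := by
  induction n with
  | zero => simp [t0p_it_zero]
  | succ n ih =>
    have e : (n + 1) * q = q + n * q := by ring
    rw [e, t0p_it_add]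
    have h1 := (t0p_it_mono F u q).monotone ih
    have h2 : α + n * (l * (2 * π)) = α + ((n * l : ℤ) : ℝ) * (2 * π) := by push_cast; ring
    rw [h2, t0p_it_shift_int F] at h1
    push_cast at h1 ⊢
    linarith

theorem t0p_it_mul_ge (F : LiftedFol h Z G) (u : ℝ) (q : ℕ) (l : ℤ) (α : ℝ) (hle : foIt G u q α ≤ α + l * (2 * π))
    (n : ℕ) : foIt G u (n * q) α ≤ α + n * (l * (2 * π)) := by
  induction n with
  | zero => simp [t0p_it_zero]
  | succ n ih =>
    have e : (n + 1) * q = q + n * q := by ring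
    rw [e, t0p_it_add]
    have h1 := (t0p_it_mono F u q).monotone ih
    have h2 : α + n * (l * (2 * π)) = α + ((n * l : ℤ) : ℝ) * (2 * π) := by push_cast; ring
    rw [h2, t0p_it_shift_int F] at h1
    push_cast at h1 ⊢
    linarith

theorem t0p_rot_lt (F : LiftedFol h Z G) {ρ : ℝ → ℝ} (hρ : IsRot G ρ) (u : ℝ) (q : ℕ) (l : ℤ)
    (hlt : q * ρ u < l * (2 * π)) (α : ℝ) : foIt G u q α < α + l * (2 * π) := by
  by_contra hcon
  push Not at hcon
  have hπ : (0 : ℝ) < 2 * π := by positivity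
  obtain ⟨n, hn⟩ := exists_nat_gt (2 * π / (l * (2 * π) - q * ρ u))
  rw [div_lt_iff₀ (by linarith)] at hn
  have h1 := t0p_it_mul_le F u q l α hcon n
  have h2 := (abs_le.1 (hρ u (n * q) α)).2
  push_cast at h2
  nlinarith

theorem t0p_rot_gt (F : LiftedFol h Z G) {ρ : ℝ → ℝ} (hρ : IsRot G ρ) (u : ℝ) (q : ℕ) (l : ℤ)
    (hlt : l * (2 * π) < q * ρ u) (α : ℝ) : α + l * (2 * π) < foIt G u q α := by
  by_contra hcon
  push Not at hcon
  have hπ : (0 : ℝ) < 2 * π := by positivity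
  obtain ⟨n, hn⟩ := exists_nat_gt (2 * π / (q * ρ u - l * (2 * π)))
  rw [div_lt_iff₀ (by linarith)] at hn
  have h1 := t0p_it_mul_ge F u q l α hcon n
  have h2 := (abs_le.1 (hρ u (n * q) α)).1
  push_cast at h2
  nlinarith

theorem t0p_rot_eq (F : LiftedFol h Z G) {ρ : ℝ → ℝ} (hρ : IsRot G ρ) (u : ℝ) (q : ℕ) (l : ℤ) (α : ℝ)
    (e : foIt G u q α = α + l * (2 * π)) : q * ρ u = l * (2 * π) := by
  rcases lt_trichotomy (q * ρ u) (l * (2 * π)) with h1 | h1 | h1
  · exact absurd e (t0p_rot_lt F hρ u q l h1 α).ne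
  · exact h1
  · exact absurd e (t0p_rot_gt F hρ u q l h1 α).ne'

/-- leaves with the same translation number: bounded relative displacement. -/
theorem t0p_rel_bound {ρ : ℝ → ℝ} (hρ : IsRot G ρ) (u u' : ℝ) (e : ρ u = ρ u') (j : ℕ) (α β : ℝ) :
    |(foIt G u' j β - foIt G u j α) - (β - α)| ≤ 4 * π := by
  have h1 := abs_le.1 (hρ u j α)
  have h2 := abs_le.1 (hρ u' j β)
  rw [← e] at h2
  rw [abs_le]
  constructor <;> linarith [h1.1, h1.2, h2.1, h2.2]

end Claimed.Agent.R269
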