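/-
Row 269, front end T0' (S0511), LEAF  LF-T0p-LiftG :  the lifted chart + invariance of the leaves  ⟹  `LiftedFol`.        Sub-captain: helper113.
Uses T0p/Defs.lean, T0p/Dict.lean (statement `t0p_dict`), T0/Next.lean.

`Φ (s, δ) = (ν s - δ, ν s + δ)`,   `Z := Φ ∘ Z0`.
PLAN.
(1) `t0p_nu_surj`: `ν (t + n L) = ν t + n 2π`, so `ν` is unbounded in both directions; IVT (`mem_range_of_exists_le_of_exists_ge`).
(2) `t0p_phi_emb`: `ν` is a homeomorphism (`StrictMono.orderIsoOfSurjective`, `OrderIso.toHomeomorph`), `Φ` = (`ν × id`) followed by the linear homeomorphism `(x, y) ↦ (x - y, x + y)`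
    (inverse `(a, b) ↦ ((a + b)/2, (b - a)/2)`).   So `Φ` is a homeomorphism and `Z` an `IsOpenEmbedding`.
(3) `mem`: `b - a = 2 δ ∈ (0, 2π)`.   `Z_shift`: `hshift`, `hνs`.   By induction `Z0 (α + m 2π, u) = Z0 (α, u) + (m L, 0)`, `Z (α + m 2π, u) = Z (α, u) + (m 2π, m 2π)`.
(4) `strip` with `2 η`:  `w ∈ wedge`, `w.2 - w.1 < 2 η`:  `δ = (w.2 - w.1)/2 ∈ (0, min η π)`, `ν s = (w.1 + w.2)/2`, `(s, δ) ∈ range Z0`.
(5) `t0p_G_exists`: `∀ α u, ∃ α', Z (α', u) = lineMap h (Z (α, u))`.   `(s, δ) = Z0 (α, u)`, `p = (s, δ) ∈ C u` (`hleaf`).   `(b, c) = lineMap h (Φ (s, δ)) ∈ wedge` (`t0_lineMap_mem`), `δ' = (c - b)/2`, `ν s' = (b + c)/2`;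
    `t0p_dict` (`n = 0`): `BilliardStep γ s δ s' δ'`, so `BilliardRel γ L p q`, `q = (s', δ')`, `q ∈ C u` (`(hinv u).1`), `hleaf`: `Z0 (α'', u) = (s' + m L, δ')` (`AddCircle.coe_eq_coe_iff..`/`QuotientAddGroup.eq`); shift by `- m 2π`.
(6) `G x :=` the chosen `α'`.   `conj` by definition.   `G_cont`: `K x := (G x, x.2)`, `Z ∘ K = lineMap h ∘ Z` is continuous (`t0_lineMap_continuousOn`, `mem`), and `Z` is inducing (`IsInducing.continuous_iff`).
    `G_shift`: `Z (G (α + 2π, u), u) = lineMap h (Z (α, u) + (2π, 2π)) = lineMap h (Z (α, u)) + (2π, 2π)` (`t0_lineMap_shift`) `= Z (G (α, u) + 2π, u)`; `Z` injective.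
    Injective in `α`: `t0_lineMap_injOn`, `Z` injective.  `Continuous.strictMono_of_inj`: strictly monotone or antitone; antitone contradicts `G_shift`.
(7) `G_surj`: given `α'`: `q = Z0 (α', u) ∈ C u`; `(hinv u).2`: `p ∈ C u`, `BilliardRel γ L p q`: `s, s'`, `BilliardStep γ s p.2 s' q.2`.   `hleaf`: after a shift `Z0 (α, u) = (s, p.2)`;   `s' = (Z0 (α', u)).1 + m' L`.
    `t0p_dict`: `lineMap h (Z (α, u)) = Φ (s', q.2) + n (2π, 2π) = Z (α' + (m' + n) 2π, u)`, so `G (α, u) = α' + (m' + n) 2π` and `G (α - (m' + n) 2π, u) = α'`.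
-/
import Claimed.Agent.R269.T0p.Fol
import Claimed.Agent.R269.T0p.Dict
import Claimed.Agent.R269.T0.Support

set_option autoImplicit false

namespace Claimed.Agent.R269

open Real

theorem t0p_nu_surj {ν : ℝ → ℝ} {L : ℝ} (hνc : Continuous ν) (hνs : ∀ t, ν (t + L) = ν t + 2 * π) :
    Function.Surjective ν :=
  t0_surj_of_shift hνc (by positivity) hνs

/-- `(x, y) ↦ (x - y, x + y)`. -/
noncomputable def t0pLam : ℝ × ℝ ≃ₜ ℝ × ℝ where
  toFun x := (x.1 - x.2, x.1 + x.2)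
  invFun w := ((w.1 + w.2) / 2, (w.2 - w.1) / 2)
  left_inv x := by
    ext
    · simp only; ring
    · simp only; ring
  right_inv w := by
    ext
    · simp only; ring
    · simp only; ring
  continuous_toFun := by fun_prop
  continuous_invFun := by fun_prop

theorem t0p_phi_emb {ν : ℝ → ℝ} (hνc : Continuous ν) (hνm : StrictMono ν) (hsurj : Function.Surjective ν) :
    Topology.IsOpenEmbedding (fun x : ℝ × ℝ => ((ν x.1 - x.2, ν x.1 + x.2) : ℝ × ℝ)) := by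
  set e : ℝ ≃ₜ ℝ := (hνm.orderIsoOfSurjective _ hsurj).toHomeomorph with he
  exact ((e.prodCongr (Homeomorph.refl ℝ)).trans t0pLam).isOpenEmbedding

theorem t0_lineMap_shift_int {h : ℝ → ℝ} (hs : IsSupport h) {w : ℝ × ℝ} (hw : w ∈ wedge) (m : ℤ) :
    lineMap h (w + ((m * (2 * π), m * (2 * π)) : ℝ × ℝ)) = lineMap h w + ((m * (2 * π), m * (2 * π)) : ℝ × ℝ) := by
  have := t0p_shift_int_gen (fun t => lineMap h (w + (t, t))) (2 * π) ((2 * π, 2 * π) : ℝ × ℝ) (fun t => by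
    rw [← t0_lineMap_shift hs (t0_wedge_shift hw t)]
    congr 1
    ext <;> simp [add_assoc]) 0 m
  have e0 : w + ((0, 0) : ℝ × ℝ) = w := by ext <;> simp
  simpa [e0] using this

/-- hypotheses on the lifted chart `Z0` (output of `t0p_lift`) and on the normal angle. -/
structure IsLiftData (h ν : ℝ → ℝ) (γ : ℝ → ℝ × ℝ) (L : ℝ) (Z0 : ℝ × ℝ → ℝ × ℝ)
    (C : ℝ → Set (AddCircle L × Set.Ioo (0 : ℝ) π)) (η : ℝ) : Prop where
  supp : IsSupport h
  nu_cont : Continuous ν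
  nu_mono : StrictMono ν
  nu_shift : ∀ t, ν (t + L) = ν t + 2 * π
  point : ∀ t, γ t = bpt h (ν t)
  tangent : ∀ t, deriv γ t = evec (ν t)
  emb : Topology.IsOpenEmbedding Z0
  mem : ∀ x, 0 < (Z0 x).2 ∧ (Z0 x).2 < π
  shift : ∀ α u, Z0 (α + 2 * π, u) = Z0 (α, u) + (L, 0)
  leaf : ∀ (u : ℝ) (p : AddCircle L × Set.Ioo (0 : ℝ) π), p ∈ C u ↔
    ∃ α, ((Z0 (α, u)).1 : AddCircle L) = p.1 ∧ (Z0 (α, u)).2 = p.2
  inv : ∀ u, Claims.C0439.IsBilliardInvariant γ L (C u)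
  eta_pos : 0 < η
  strip : ∀ s δ : ℝ, 0 < δ → δ < η → δ < π → (s, δ) ∈ Set.range Z0

variable {h ν : ℝ → ℝ} {γ : ℝ → ℝ × ℝ} {L : ℝ} {Z0 : ℝ × ℝ → ℝ × ℝ} {C : ℝ → Set (AddCircle L × Set.Ioo (0 : ℝ) π)} {η : ℝ}

theorem t0p_Z0_shift_int (D : IsLiftData h ν γ L Z0 C η) (α u : ℝ) (m : ℤ) :
    Z0 (α + m * (2 * π), u) = Z0 (α, u) + ((m * L, 0) : ℝ × ℝ) := by
  have := t0p_shift_int_gen (fun a => Z0 (a, u)) (2 * π) ((L, 0) : ℝ × ℝ) (fun t => D.shift t u) α m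
  simpa using this

theorem t0p_coe_eq {L a b : ℝ} (e : (a : AddCircle L) = b) : ∃ k : ℤ, b = a + k * L := by
  rw [QuotientAddGroup.eq, AddSubgroup.mem_zmultiples_iff] at e
  obtain ⟨k, hk⟩ := e
  refine ⟨k, ?_⟩
  rw [zsmul_eq_mul] at hk
  linarith

/-- a point of the leaf `u`, given by ANY representative `s` of its foot point, is `Z0 (α, u)`. -/
theorem t0p_leaf_rep (D : IsLiftData h ν γ L Z0 C η) (u s : ℝ) (δ : Set.Ioo (0 : ℝ) π)
    (hp : ((s : AddCircle L), δ) ∈ C u) : ∃ α, Z0 (α, u) = (s, (δ : ℝ)) := by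
  obtain ⟨α, e1, e2⟩ := (D.leaf u _).1 hp
  obtain ⟨k, hk⟩ := t0p_coe_eq e1
  refine ⟨α + k * (2 * π), ?_⟩
  rw [t0p_Z0_shift_int D]
  ext
  · simp only [Prod.fst_add]
    exact hk.symm
  · simp only [Prod.snd_add, add_zero]
    exact e2

/-- the change of coordinates `(s, δ) ↦ (ν s - δ, ν s + δ)`. -/
def t0pPhi (ν : ℝ → ℝ) (x : ℝ × ℝ) : ℝ × ℝ := (ν x.1 - x.2, ν x.1 + x.2)

theorem t0p_phi_mem (D : IsLiftData h ν γ L Z0 C η) (x : ℝ × ℝ) : t0pPhi ν (Z0 x) ∈ wedge := by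
  obtain ⟨h1, h2⟩ := D.mem x
  exact ⟨by simp only [t0pPhi]; linarith, by simp only [t0pPhi]; linarith⟩

theorem t0p_phi_shift_int (D : IsLiftData h ν γ L Z0 C η) (α u : ℝ) (m : ℤ) :
    t0pPhi ν (Z0 (α + m * (2 * π), u)) = t0pPhi ν (Z0 (α, u)) + ((m * (2 * π), m * (2 * π)) : ℝ × ℝ) := by
  rw [t0p_Z0_shift_int D]
  simp only [t0pPhi, Prod.fst_add, Prod.snd_add, add_zero, Prod.mk_add_mk]
  rw [t0_shift_int D.nu_shift]
  ext
  · simp only; ring
  · simp only; ring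

theorem t0p_mem_leaf (D : IsLiftData h ν γ L Z0 C η) (α u : ℝ) :
    (((Z0 (α, u)).1 : AddCircle L), (⟨(Z0 (α, u)).2, D.mem _⟩ : Set.Ioo (0 : ℝ) π)) ∈ C u :=
  (D.leaf u _).2 ⟨α, rfl, rfl⟩

theorem t0p_G_exists (D : IsLiftData h ν γ L Z0 C η) (α u : ℝ) :
    ∃ α', t0pPhi ν (Z0 (α', u)) = lineMap h (t0pPhi ν (Z0 (α, u))) := by
  set s := (Z0 (α, u)).1 with hs
  set δ := (Z0 (α, u)).2 with hδ
  obtain ⟨d1, d2⟩ := D.mem (α, u)
  have hw := t0_lineMap_mem D.supp (t0p_phi_mem D (α, u))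
  set w := lineMap h (t0pPhi ν (Z0 (α, u))) with hwdef
  obtain ⟨s', hs'⟩ := t0p_nu_surj D.nu_cont D.nu_shift ((w.1 + w.2) / 2)
  have hδ'1 : 0 < (w.2 - w.1) / 2 := by linarith [hw.1]
  have hδ'2 : (w.2 - w.1) / 2 < π := by linarith [hw.2]
  have hstep : Claims.C0439.BilliardStep γ s δ s' ((w.2 - w.1) / 2) := by
    rw [t0p_dict D.supp D.point D.tangent s δ s' _ d1 d2 hδ'1 hδ'2]
    refine ⟨0, ?_⟩
    have : lineMap h (ν s - δ, ν s + δ) = w := rfl
    rw [this, hs']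
    ext
    · simp only [Int.cast_zero]; ring
    · simp only [Int.cast_zero]; ring
  have hq : ((s' : AddCircle L), (⟨(w.2 - w.1) / 2, hδ'1, hδ'2⟩ : Set.Ioo (0 : ℝ) π)) ∈ C u :=
    (D.inv u).1 _ (t0p_mem_leaf D α u) _ ⟨s, s', rfl, rfl, hstep⟩
  obtain ⟨α', e⟩ := t0p_leaf_rep D u s' _ hq
  refine ⟨α', ?_⟩
  rw [e]
  simp only [t0pPhi, hs']
  ext
  · simp only; ring
  · simp only; ring

theorem t0p_G_pre (D : IsLiftData h ν γ L Z0 C η) (α' u : ℝ) :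
    ∃ α, t0pPhi ν (Z0 (α', u)) = lineMap h (t0pPhi ν (Z0 (α, u))) := by
  obtain ⟨p, hp, s, s', e1, e2, hstep⟩ := (D.inv u).2 _ (t0p_mem_leaf D α' u)
  have hp' : ((s : AddCircle L), p.2) ∈ C u := by rw [e1]; exact hp
  obtain ⟨α₀, hα₀⟩ := t0p_leaf_rep D u s p.2 hp'
  simp only at e2 hstep
  obtain ⟨k, hk⟩ := t0p_coe_eq e2
  obtain ⟨d1, d2⟩ := D.mem (α', u)
  rw [t0p_dict D.supp D.point D.tangent s _ s' _ p.2.2.1 p.2.2.2 d1 d2] at hstep
  obtain ⟨n, hn⟩ := hstep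
  -- `s' = (Z0 (α', u)).1 - k L`
  have hν : ν (Z0 (α', u)).1 = ν s' + k * (2 * π) := by
    rw [hk, t0_shift_int D.nu_shift]
  refine ⟨α₀ + ((k - n : ℤ) : ℝ) * (2 * π), ?_⟩
  rw [t0p_phi_shift_int D, t0_lineMap_shift_int D.supp (t0p_phi_mem D _), hα₀]
  have : t0pPhi ν (s, (p.2 : ℝ)) = (ν s - p.2, ν s + p.2) := rfl
  rw [this, hn]
  simp only [t0pPhi, hν, Prod.mk_add_mk]
  push_cast
  ext
  · simp only; ring
  · simp only; ring

/-- **the lifted foliation.** -/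
theorem t0p_liftedFol (D : IsLiftData h ν γ L Z0 C η) : ∃ Z G, LiftedFol h Z G := by
  have hπ := pi_pos
  have hsurj := t0p_nu_surj D.nu_cont D.nu_shift
  set Z : ℝ × ℝ → ℝ × ℝ := fun x => t0pPhi ν (Z0 x) with hZ
  have hemb : Topology.IsOpenEmbedding Z := (t0p_phi_emb D.nu_cont D.nu_mono hsurj).comp D.emb
  have hmem : ∀ x, Z x ∈ wedge := t0p_phi_mem D
  choose G₀ hG₀ using t0p_G_exists D
  set G : ℝ × ℝ → ℝ := fun x => G₀ x.1 x.2 with hG
  have hconj : ∀ α u, lineMap h (Z (α, u)) = Z (G (α, u), u) := fun α u => (hG₀ α u).symm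
  have hZs : ∀ α u, Z (α + 2 * π, u) = Z (α, u) + (2 * π, 2 * π) := by
    intro α u
    have := t0p_phi_shift_int D α u 1
    simpa using this
  have hGc : Continuous G := by
    have h1 : Continuous fun x : ℝ × ℝ => Z (G x, x.2) := by
      have h2 : (fun x : ℝ × ℝ => Z (G x, x.2)) = fun x => lineMap h (Z x) := by
        funext x
        exact (hconj x.1 x.2).symm
      rw [h2]
      exact (t0_lineMap_continuousOn D.supp).comp_continuous hemb.continuous hmem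
    have h3 : Continuous fun x : ℝ × ℝ => (G x, x.2) := (hemb.isInducing.continuous_iff).2 h1
    exact continuous_fst.comp h3
  have hGs : ∀ α u, G (α + 2 * π, u) = G (α, u) + 2 * π := by
    intro α u
    have h1 : Z (G (α + 2 * π, u), u) = Z (G (α, u) + 2 * π, u) := by
      rw [← hconj, hZs, t0_lineMap_shift D.supp (hmem _), hconj, hZs]
    exact congrArg Prod.fst (hemb.injective h1)
  have hGi : ∀ u, Function.Injective fun α => G (α, u) := by
    intro u α β e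
    simp only at e
    have h1 : lineMap h (Z (α, u)) = lineMap h (Z (β, u)) := by rw [hconj, hconj, e]
    exact congrArg Prod.fst (hemb.injective (t0_lineMap_injOn D.supp (hmem _) (hmem _) h1))
  refine ⟨Z, G, hemb, hmem, hZs, hGc, hGs, fun u => ?_, fun u α' => ?_, hconj, 2 * η, by linarith [D.eta_pos],
    fun w hw hlt => ?_⟩
  · have hc : Continuous fun α => G (α, u) := hGc.comp (continuous_id.prodMk continuous_const)
    rcases hc.strictMono_of_inj (hGi u) with hm | ha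
    · exact hm
    · exfalso
      have h1 := ha (by linarith : (0 : ℝ) < 0 + 2 * π)
      simp only [hGs] at h1
      linarith
  · obtain ⟨α, e⟩ := t0p_G_pre D α' u
    refine ⟨α, ?_⟩
    have h1 : Z (α', u) = Z (G (α, u), u) := by rw [← hconj]; exact e
    exact (congrArg Prod.fst (hemb.injective h1)).symm
  · obtain ⟨s, hs⟩ := hsurj ((w.1 + w.2) / 2)
    obtain ⟨x, hx⟩ := D.strip s ((w.2 - w.1) / 2) (by linarith [hw.1]) (by linarith) (by linarith [hw.2])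
    refine ⟨x, ?_⟩
    simp only [hZ, hx, t0pPhi, hs]
    ext
    · simp only; ring
    · simp only; ring

end Claimed.Agent.R269
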