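/-
Row 269, front end T0' (S0511):  ASSEMBLY.    Sub-captain: helper113.
`t0p_stage` = `stage_T0'` of Stages.lean, proved here from `t0a_main` (T0/Support), `t0p_lift` (T0p/Lift), `t0p_liftedFol` (T0p/LiftG), `t0p_collar` (T0p/Collar), `t0c_rigid` (T0/Rigid).
The hypotheses `hUinv`, `hleaf_ess` are not used.
-/
import Claimed.Agent.R269.T0.Support
import Claimed.Agent.R269.T0.Rigid
import Claimed.Agent.R269.T0p.Lift
import Claimed.Agent.R269.T0p.LiftG
import Claimed.Agent.R269.T0p.Collar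

set_option autoImplicit false

namespace Claimed.Agent.R269

open Real

/-- **T0'** (`stage_T0'` of Stages.lean). -/
theorem t0p_stage (Ω : Set (ℝ × ℝ)) (γ : ℝ → ℝ × ℝ) (L : ℝ)
    (hΩo : IsOpen Ω) (hΩb : Bornology.IsBounded Ω) (hΩc : StrictConvex ℝ (closure Ω))
    (hL : 0 < L) (hsmooth : ContDiff ℝ ((⊤ : ℕ∞) : WithTop ℕ∞) γ) (hper : Function.Periodic γ L)
    (hinj : Set.InjOn γ (Set.Ico 0 L))
    (hunit : ∀ s, Claims.C0439.dot2 (deriv γ s) (deriv γ s) = 1)
    (hbd : frontier Ω = Set.range γ)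
    (hcurv : ∀ s, 0 < Claims.C0439.det2 (deriv γ s) (deriv (deriv γ) s))
    (U : Set (AddCircle L × Set.Ioo (0 : ℝ) Real.pi)) (hUo : IsOpen U)
    (hUinv : Claims.C0439.IsBilliardInvariant γ L U)
    (η : ℝ) (hη : 0 < η)
    (hstrip : ∀ p : AddCircle L × Set.Ioo (0 : ℝ) Real.pi, (p.2 : ℝ) < η → p ∈ U)
    (H : Circle × Set.Ioo (0 : ℝ) 1 ≃ₜ U)
    (hleaf_inv : ∀ b : Set.Ioo (0 : ℝ) 1,
      Claims.C0439.IsBilliardInvariant γ L (Subtype.val '' (H '' {x | x.2 = b})))
    (hleaf_ess : ∀ b : Set.Ioo (0 : ℝ) 1,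
      ∀ f : C(Circle, AddCircle L × Set.Ioo (0 : ℝ) Real.pi),
      (∀ z, f z = (H (z, b) : AddCircle L × Set.Ioo (0 : ℝ) Real.pi)) →
      ∀ m, ¬ f.Homotopic (ContinuousMap.const Circle m)) :
    ∃ (c₀ : ℝ × ℝ) (h : ℝ → ℝ), IsSupport h ∧ Ω = tableOf c₀ h ∧ GlancingRigid h := by
  have hreg : ∀ t, deriv γ t ≠ 0 := by
    intro t h0
    have := hunit t
    rw [h0] at this
    simp [Claims.C0439.dot2] at this
  have T : IsTable Ω γ L :=
    ⟨hΩo, hΩb, hΩc, hL, hsmooth, hper, hinj, hreg, hbd, fun t => (hcurv t).ne'⟩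
  obtain ⟨h, ν, σ, P⟩ := t0a_main T
  have hσ : σ = 1 := by
    rcases P.sign with h1 | h1
    · exact h1
    · exfalso
      have h2 := P.curv 0
      have h3 := hcurv 0
      rw [Claims.C0439.det2] at h3
      rw [h1] at h2
      linarith
  subst hσ
  have htan : ∀ t, deriv γ t = evec (ν t) := by
    intro t
    obtain ⟨c, hc, e⟩ := P.tangent t
    have h1 := hunit t
    rw [e] at h1
    have h2 : c * c = 1 := by
      have h3 := sin_sq_add_cos_sq (ν t)
      simp only [Claims.C0439.dot2, evec, one_mul, Prod.smul_mk, smul_eq_mul] at h1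
      nlinarith
    have h3 : c = 1 := by nlinarith
    rw [e, h3]
    simp
  obtain ⟨Z0, bb, a1, a2, a3, a4, a5⟩ := t0p_lift L hL U hUo η hη hstrip H
  have D : IsLiftData h ν γ L Z0 (fun u => Subtype.val '' (H '' {x | x.2 = bb u})) η :=
    { supp := P.supp
      nu_cont := P.cont
      nu_mono := by simpa using P.mono
      nu_shift := by simpa using P.shift
      point := P.point
      tangent := htan
      emb := a1
      mem := a2
      shift := a3
      leaf := a4
      inv := fun u => hleaf_inv (bb u)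
      eta_pos := hη
      strip := a5 }
  obtain ⟨Z, G, F⟩ := t0p_liftedFol D
  obtain ⟨g, hg⟩ := t0p_collar F P.supp
  exact ⟨0, h, P.supp, P.table, t0c_rigid P.supp hg⟩

end Claimed.Agent.R269
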