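/-
Row 269, front end T0' (S0511), HOST-FREE LEAF  LF-T0p-Arg.        Sub-captain: helper113.
Continuous arguments of nowhere vanishing plane vector fields on a real normed space, and two connectedness lemmas.

PLAN.
* `t0p_arg_lift`: `z q := (D q).1 + i (D q).2` divided by its norm is a continuous map `E → Circle`; `E` is simply connected
  (contractible) and locally path connected; apply `Circle.isCoveringMap_exp.existsUnique_continuousMap_lifts`
  (Mathlib.Topology.Homotopy.Lifting) at the base point `0` (`Circle.exp` is surjective); `r = ‖z q‖`;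
  `Circle.coe_exp`, `Complex.exp_mul_I`.
* `t0p_quadrant`: the image `A '' R` is preconnected, hence order connected; it contains no `k π / 2`; if
  `π / 2 ≤ A q' - A q` then some multiple of `π / 2` lies in `[A q, A q']`.
* `t0p_const_of_int`: `f / (2π)` is continuous and integer valued; IVT (or `IsPreconnected.constant`).
-/
import Mathlib

set_option autoImplicit false

namespace Claimed.Agent.R269

open Real

/-- a nowhere vanishing continuous plane vector field on a normed space has a continuous argument. -/
theorem t0p_arg_lift {E : Type} [NormedAddCommGroup E] [NormedSpace ℝ E] (D : E → ℝ × ℝ)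
    (hD : Continuous D) (h0 : ∀ q, D q ≠ 0) :
    ∃ A : E → ℝ, Continuous A ∧ ∀ q, ∃ r : ℝ, 0 < r ∧ D q = (r * cos (A q), r * sin (A q)) := by
  set z : E → ℂ := fun q => ⟨(D q).1, (D q).2⟩ with hz
  have hzc : Continuous z := by
    have h1 : Continuous fun q => ((D q).1 : ℂ) + ((D q).2 : ℂ) * Complex.I := by fun_prop
    have e : z = fun q => ((D q).1 : ℂ) + ((D q).2 : ℂ) * Complex.I := by
      funext q
      apply Complex.ext <;> simp [hz]
    rw [e]
    exact h1
  have hz0 : ∀ q, z q ≠ 0 := by
    intro q h
    apply h0 q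
    have h1 := congrArg Complex.re h
    have h2 := congrArg Complex.im h
    exact Prod.ext h1 h2
  have hn0 : ∀ q, 0 < ‖z q‖ := fun q => norm_pos_iff.2 (hz0 q)
  let c : C(E, Circle) :=
    { toFun := fun q => ⟨z q / (‖z q‖ : ℂ), by
        rw [Submonoid.unitSphere, Submonoid.mem_mk, Subsemigroup.mem_mk, mem_sphere_zero_iff_norm,
          norm_div, Complex.norm_real, norm_norm, div_self (hn0 q).ne']⟩
      continuous_toFun := by
        refine Continuous.subtype_mk ?_ _
        exact hzc.div (Complex.continuous_ofReal.comp hzc.norm)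
          (fun q => by exact_mod_cast (hn0 q).ne') }
  obtain ⟨F, ⟨-, hF⟩, -⟩ := Circle.isCoveringMap_exp.existsUnique_continuousMap_lifts c (0 : E)
    (Complex.arg (c 0)) (Circle.exp_arg (c 0))
  refine ⟨F, F.continuous, fun q => ⟨‖z q‖, hn0 q, ?_⟩⟩
  have h1 : (Circle.exp (F q) : ℂ) = z q / (‖z q‖ : ℂ) := by
    have := congrFun hF q
    exact congrArg (fun w : Circle => (w : ℂ)) this
  rw [Circle.coe_exp, Complex.exp_mul_I, eq_div_iff (by exact_mod_cast (hn0 q).ne')] at h1
  have hre := congrArg Complex.re h1
  have him := congrArg Complex.im h1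
  simp only [Complex.mul_re, Complex.add_re, Complex.mul_im, Complex.add_im, Complex.ofReal_re,
    Complex.ofReal_im, Complex.I_re, Complex.I_im, ← Complex.ofReal_cos, ← Complex.ofReal_sin,
    mul_zero, mul_one, sub_zero, add_zero, zero_add, zero_mul] at hre him
  refine Prod.ext ?_ ?_
  · show (D q).1 = ‖z q‖ * cos (F q)
    have : (z q).re = (D q).1 := rfl
    rw [← this, ← hre]; ring
  · show (D q).2 = ‖z q‖ * sin (F q)
    have : (z q).im = (D q).2 := rfl
    rw [← this, ← him]; ring

/-- on a preconnected set on which the field stays in the open first quadrant the argument oscillates by less than `π/2`. -/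
theorem t0p_quadrant {E : Type} [TopologicalSpace E] (A : E → ℝ) (R : Set E) (hR : IsPreconnected R)
    (hA : ContinuousOn A R) (hc : ∀ q ∈ R, 0 < cos (A q)) (hs : ∀ q ∈ R, 0 < sin (A q)) :
    ∀ q ∈ R, ∀ q' ∈ R, |A q - A q'| < π / 2 := by
  have key : ∀ q ∈ R, ∀ q' ∈ R, A q' - A q < π / 2 := by
    intro q hq q' hq'
    by_contra hcon
    push Not at hcon
    have hpi : 0 < π / 2 := by positivity
    have hoc : (A '' R).OrdConnected := (hR.image A hA).ordConnected
    set k : ℤ := ⌈A q / (π / 2)⌉ with hk
    have h1 : A q ≤ k * (π / 2) := by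
      have := Int.le_ceil (A q / (π / 2))
      rwa [div_le_iff₀ hpi] at this
    have h2 : k * (π / 2) < A q + π / 2 := by
      have := Int.ceil_lt_add_one (A q / (π / 2))
      rw [← hk, ← sub_lt_iff_lt_add, lt_div_iff₀ hpi] at this
      linarith
    have hmem : (k : ℝ) * (π / 2) ∈ A '' R :=
      hoc.out (Set.mem_image_of_mem A hq) (Set.mem_image_of_mem A hq') ⟨h1, by linarith⟩
    obtain ⟨p, hp, hpk⟩ := hmem
    have h3 : sin (2 * A p) = 0 := by
      rw [hpk, show 2 * ((k : ℝ) * (π / 2)) = k * π by ring]
      exact Real.sin_int_mul_pi k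
    rw [Real.sin_two_mul] at h3
    have h4 := mul_pos (hs p hp) (hc p hp)
    linarith
  intro q hq q' hq'
  rw [abs_lt]
  constructor
  · linarith [key q hq q' hq']
  · exact key q' hq' q hq

/-- a continuous function with values in `2π ℤ` on a preconnected space is constant. -/
theorem t0p_const_of_int {E : Type} [TopologicalSpace E] [PreconnectedSpace E] (f : E → ℝ)
    (hf : Continuous f) (hint : ∀ q, ∃ n : ℤ, f q = n * (2 * π)) (q q' : E) : f q = f q' := by
  have key : ∀ q q' : E, ¬ f q < f q' := by
    intro q q' hlt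
    obtain ⟨n, hn⟩ := hint q
    obtain ⟨n', hn'⟩ := hint q'
    have hpi : 0 < 2 * π := by positivity
    have hnn : n < n' := by
      rw [hn, hn'] at hlt
      have := lt_of_mul_lt_mul_right hlt hpi.le
      exact_mod_cast this
    have hnn' : (n : ℝ) + 1 ≤ n' := by exact_mod_cast hnn
    have hmem : ((n : ℝ) + 1 / 2) * (2 * π) ∈ Set.Icc (f q) (f q') := by
      rw [hn, hn']
      constructor
      · nlinarith
      · nlinarith
    obtain ⟨p, hp⟩ := intermediate_value_univ q q' hf hmem
    obtain ⟨m, hm⟩ := hint p
    rw [hm] at hp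
    have h1 : (m : ℝ) = n + 1 / 2 := mul_right_cancel₀ hpi.ne' hp
    have h2 : (2 * m : ℝ) = 2 * n + 1 := by linarith
    have h3 : (2 * m : ℤ) = 2 * n + 1 := by exact_mod_cast h2
    omega
  exact le_antisymm (not_lt.1 (key q' q)) (not_lt.1 (key q q'))

end Claimed.Agent.R269
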