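/-
Row 269, front end T0' (S0511), HOST-FREE LEAF  LF-T0p-Barrier.        Sub-captain: helper113.
= P2 (Continuous-Phase-Foliations..., build/sections/geometry.tex) Lemma "Separation barrier" l.178-236, abstract form.

SETTING.  `D q = (x_{-1}, x_0)`, `D (K q) = (x_0, x_1)` (difference of two orbits of a twist map); `A` = continuous argument of `D`.
Twist rule: `x_0 = 0 ⟹ x_{-1} x_1 < 0`.
PROOF.  (1) `A (K q) - A q ≠ π/2 + 2π n`: otherwise `D (K q) = c (-(D q).2, (D q).1)` with `c > 0`, so `(D q).2 = -c (D q).2`, hence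
`(D q).2 = 0` and `(D (K q)).2 = c (D q).1` has the sign of `(D q).1`: contradiction with the twist rule.
(2) `q ↦ A (K q) - A q` is continuous on a preconnected space and avoids `π/2` and `π/2 - 2π`, and lies between them at `q₀`: IVT.
(3) barrier: if `A q ≤ a ≤ A (K q)`, `a = π/2 + m π`, then by (2) `a - π/2 < A q ≤ a ≤ A (K q) < a + π/2`; write `A q = a - s`,
`A (K q) = a + t`, `0 ≤ s, t < π/2`: `sin (A q) = (-1)^m cos s`, `cos (A (K q)) = -(-1)^m sin t`; both have the sign of `(D q).2 = (D (K q)).1`: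
`(-1)^m cos s · r = -(-1)^m sin t · r'` with `cos s > 0`, `sin t ≥ 0`, `r, r' > 0`: impossible.
-/
import Mathlib

set_option autoImplicit false

namespace Claimed.Agent.R269

open Real

theorem t0p_barrier {E : Type} [TopologicalSpace E] [PreconnectedSpace E] (D : E → ℝ × ℝ) (A : E → ℝ) (K : E → E)
    (hA : Continuous A) (hK : Continuous K)
    (hDA : ∀ q, ∃ r : ℝ, 0 < r ∧ D q = (r * cos (A q), r * sin (A q)))
    (hstep : ∀ q, (D (K q)).1 = (D q).2)
    (htw : ∀ q, (D q).2 = 0 → (D q).1 * (D (K q)).2 < 0)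
    (q₀ : E) (h1 : -(3 * π / 2) < A (K q₀) - A q₀) (h2 : A (K q₀) - A q₀ < π / 2) :
    (∀ q, -(3 * π / 2) < A (K q) - A q ∧ A (K q) - A q < π / 2) ∧
      ∀ (m : ℤ) (q : E), A q ≤ π / 2 + m * π → A (K q) < π / 2 + m * π := by
  -- (1) the forbidden values
  have hne : ∀ (q : E) (n : ℤ), A (K q) - A q ≠ π / 2 + n * (2 * π) := by
    intro q n heq
    obtain ⟨r, hr, hD⟩ := hDA q
    obtain ⟨r', hr', hD'⟩ := hDA (K q)
    have hb : A (K q) = A q + π / 2 + n * (2 * π) := by linarith
    have hcos : cos (A (K q)) = -sin (A q) := by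
      rw [hb, Real.cos_add_int_mul_two_pi, Real.cos_add_pi_div_two]
    have hsin : sin (A (K q)) = cos (A q) := by
      rw [hb, Real.sin_add_int_mul_two_pi, Real.sin_add_pi_div_two]
    have h3 := hstep q
    rw [hD, hD'] at h3
    simp only [hcos] at h3
    have h4 : (r + r') * sin (A q) = 0 := by linarith
    have h5 : sin (A q) = 0 := by
      rcases mul_eq_zero.1 h4 with h | h
      · linarith
      · exact h
    have h6 := htw q (by rw [hD]; simp [h5])
    rw [hD, hD'] at h6
    simp only [hsin] at h6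
    have h7 : 0 ≤ r * cos (A q) * (r' * cos (A q)) := by
      have : r * cos (A q) * (r' * cos (A q)) = r * r' * cos (A q) ^ 2 := by ring
      rw [this]
      positivity
    linarith
  have hg : Continuous fun q => A (K q) - A q := (hA.comp hK).sub hA
  -- (2) the range of the increment
  have hrange : ∀ q, -(3 * π / 2) < A (K q) - A q ∧ A (K q) - A q < π / 2 := by
    intro q
    constructor
    · by_contra hcon
      push Not at hcon
      obtain ⟨p, hp⟩ := intermediate_value_univ q q₀ hg (⟨hcon, h1.le⟩ :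
        -(3 * π / 2) ∈ Set.Icc (A (K q) - A q) (A (K q₀) - A q₀))
      refine hne p (-1) ?_
      simp only at hp
      rw [hp]
      push_cast
      ring
    · by_contra hcon
      push Not at hcon
      obtain ⟨p, hp⟩ := intermediate_value_univ q₀ q hg (⟨h2.le, hcon⟩ :
        π / 2 ∈ Set.Icc (A (K q₀) - A q₀) (A (K q) - A q))
      refine hne p 0 ?_
      simp only at hp
      rw [hp]
      simp
  refine ⟨hrange, fun m q hq => ?_⟩
  by_contra hcon
  push Not at hcon
  obtain ⟨r, hr, hD⟩ := hDA q
  obtain ⟨r', hr', hD'⟩ := hDA (K q)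
  have hinc := (hrange q).2
  set s := π / 2 + m * π - A q with hs
  set t := A (K q) - (π / 2 + m * π) with ht
  have hs0 : 0 ≤ s := by linarith
  have ht0 : 0 ≤ t := by linarith
  have hs1 : s < π / 2 := by linarith
  have ht1 : t < π / 2 := by linarith
  have hsm : sin (m * π) = 0 := Real.sin_int_mul_pi m
  have hcm : cos (m * π) ≠ 0 := by
    intro h
    have := Real.sin_sq_add_cos_sq (m * π)
    rw [hsm, h] at this
    norm_num at this
  have e1 : sin (A q) = cos (m * π) * cos s := by
    have : A q = (m * π - s) + π / 2 := by rw [hs]; ring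
    rw [this, Real.sin_add_pi_div_two, Real.cos_sub, hsm, zero_mul, add_zero]
  have e2 : cos (A (K q)) = -(cos (m * π) * sin t) := by
    have : A (K q) = (m * π + t) + π / 2 := by rw [ht]; ring
    rw [this, Real.cos_add_pi_div_two, Real.sin_add, hsm, zero_mul, zero_add]
  have h3 := hstep q
  rw [hD, hD'] at h3
  simp only [e1, e2] at h3
  have h4 : cos (m * π) * (r * cos s + r' * sin t) = 0 := by linarith
  have h5 : r * cos s + r' * sin t = 0 := (mul_eq_zero.1 h4).resolve_left hcm
  have h6 : 0 < cos s := Real.cos_pos_of_mem_Ioo ⟨by linarith, hs1⟩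
  have h7 : 0 ≤ sin t := Real.sin_nonneg_of_nonneg_of_le_pi ht0 (by linarith [Real.pi_pos])
  have h8 : 0 < r * cos s := mul_pos hr h6
  have h9 : 0 ≤ r' * sin t := mul_nonneg hr'.le h7
  linarith

/-- consequence: once below a barrier, always below. -/
theorem t0p_barrier_iter {E : Type} (A : E → ℝ) (K : E → E) (a : ℝ)
    (hb : ∀ q, A q ≤ a → A (K q) < a) (q : E) (hq : A (K q) < a) (j : ℕ) (hj : 1 ≤ j) : A (K^[j] q) < a := by
  induction j, hj using Nat.le_induction with
  | base => simpa using hq
  | succ j _ ih =>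
    rw [Function.iterate_succ_apply']
    exact hb _ ih.le

end Claimed.Agent.R269
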