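/-
Row 269, front end T0' (S0511), LEAF  LF-T0p-Measure.        Sub-captain: helper113.
THE INVARIANT AREA of the billiard map in the coordinates (incoming angle, outgoing angle).   Uses only T0/Model.lean, T0/Next.lean.

PLAN.  `W = wedge`, `ρ (a, b) = (1/2) (h ψ + h'' ψ) sin d`, `ψ = (a+b)/2`, `d = (b-a)/2` (`> 0` on `W`, continuous, bounded, invariant
under the diagonal shift by `2π`);   `μ := (volume.restrict W).withDensity (ENNReal.ofReal ∘ ρ)`;   `T := W.piecewise (lineMap h) id`.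
Two explicit smooth maps `ℝ² → ℝ²`:
    `πin (b, c) = (b, pIn h b c)`,      `πout (a, b) = (b, pOut h a b)`,
both injective on `W` (`t0_pIn_inj`, `t0_pOut_inj`), with `πin (lineMap h w) = πout w` on `W` (`t0_nxt_spec`), `|det D πin| = |det D πout| = ρ`
(`t0_hasDerivAt_pIn_snd`, `t0_hasDerivAt_pOut_fst` give the relevant partial derivative; `D πin = [[1, 0], [*, -ρ]]`, `D πout = [[0, 1], [ρ, *]]`;
`pIn`, `pOut` are `ContDiff` in both variables, so `HasFDerivAt` holds with `fderiv`; determinant via `LinearMap.det` in `Basis.finTwoProd`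
or via `ContinuousLinearMap.det` of an explicit `ContinuousLinearMap.prod`).
Invariance: for measurable `E`,   `T ⁻¹' E ∩ W = W ∩ πout ⁻¹' (πin '' (E ∩ W))`  (injectivity of `πin` on `W`, `lineMap h` maps `W` to `W`), and
    `μ (W ∩ πout⁻¹' S) = volume (S ∩ πout '' W)`        (`MeasureTheory.map_withDensity_abs_det_fderiv_eq_addHaar`),
    `volume (πin '' (E ∩ W)) = ∫⁻ E ∩ W, ρ = μ E`        (`MeasureTheory.lintegral_abs_det_fderiv_eq_addHaar_image`),
    `πin '' W ⊆ πout '' W`                                (`t0_lineMap_surjOn`);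
`πin '' (E ∩ W)` is measurable (`MeasurableSet.image_of_continuousOn_injOn`).   `T` is measurable (`t0_lineMap_continuousOn`, `W` is an
`IsOpen` set: `ContinuousOn.measurable_piecewise`).
Shift: `volume` is translation invariant, `W` and `ρ` are invariant under the diagonal shift (`IsSupport.periodic`, `IsSupport.deriv2_periodic`).
Positivity: `ρ > 0` on a nonempty `IsOpen` subset of `W`.   Finiteness: `ρ ≤ C` (continuous + periodic) and bounded sets have finite volume.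
-/
import Claimed.Agent.R269.T0.Next

set_option autoImplicit false

namespace Claimed.Agent.R269

open Real MeasureTheory

theorem t0p_det_fst_prod (L : ℝ × ℝ →L[ℝ] ℝ) :
    ((ContinuousLinearMap.fst ℝ ℝ ℝ).prod L).det = L (0, 1) := by
  rw [ContinuousLinearMap.det, ← LinearMap.det_toMatrix (Module.Basis.finTwoProd ℝ), Matrix.det_fin_two]
  simp [LinearMap.toMatrix_apply]

theorem t0p_det_snd_prod (L : ℝ × ℝ →L[ℝ] ℝ) :
    ((ContinuousLinearMap.snd ℝ ℝ ℝ).prod L).det = -L (1, 0) := by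
  rw [ContinuousLinearMap.det, ← LinearMap.det_toMatrix (Module.Basis.finTwoProd ℝ), Matrix.det_fin_two]
  simp [LinearMap.toMatrix_apply]

theorem t0p_differentiable_pIn {h : ℝ → ℝ} (hs : IsSupport h) : Differentiable ℝ fun x : ℝ × ℝ => pIn h x.1 x.2 := by
  unfold pIn
  have := hs.differentiable
  have := hs.differentiable_deriv
  fun_prop

theorem t0p_differentiable_pOut {h : ℝ → ℝ} (hs : IsSupport h) : Differentiable ℝ fun x : ℝ × ℝ => pOut h x.1 x.2 := by
  unfold pOut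
  have := hs.differentiable
  have := hs.differentiable_deriv
  fun_prop

/-- the density of the invariant area. -/
noncomputable def t0pRho (h : ℝ → ℝ) (w : ℝ × ℝ) : ℝ :=
  (1 / 2) * (h ((w.1 + w.2) / 2) + deriv (deriv h) ((w.1 + w.2) / 2)) * sin ((w.2 - w.1) / 2)

noncomputable def t0pIn (h : ℝ → ℝ) (w : ℝ × ℝ) : ℝ × ℝ := (w.1, pIn h w.1 w.2)

noncomputable def t0pOut (h : ℝ → ℝ) (w : ℝ × ℝ) : ℝ × ℝ := (w.2, pOut h w.1 w.2)

/-- the invariant area. -/
noncomputable def t0pMu (h : ℝ → ℝ) : Measure (ℝ × ℝ) :=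
  (volume.restrict wedge).withDensity fun w => ENNReal.ofReal |t0pRho h w|

theorem t0pRho_cont {h : ℝ → ℝ} (hs : IsSupport h) : Continuous (t0pRho h) := by
  unfold t0pRho
  have := hs.continuous
  have := hs.continuous_deriv2
  fun_prop

theorem t0pRho_pos {h : ℝ → ℝ} (hs : IsSupport h) {w : ℝ × ℝ} (hw : w ∈ wedge) : 0 < t0pRho h w := by
  unfold t0pRho
  have h1 := hs.radius_pos ((w.1 + w.2) / 2)
  have h2 : 0 < sin ((w.2 - w.1) / 2) := sin_pos_of_pos_of_lt_pi (by linarith [hw.1]) (by linarith [hw.2])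
  positivity

theorem t0pIn_fderiv {h : ℝ → ℝ} (hs : IsSupport h) (w : ℝ × ℝ) :
    HasFDerivAt (t0pIn h) ((ContinuousLinearMap.fst ℝ ℝ ℝ).prod (fderiv ℝ (fun x : ℝ × ℝ => pIn h x.1 x.2) w)) w :=
  hasFDerivAt_fst.prodMk (t0p_differentiable_pIn hs w).hasFDerivAt

theorem t0pOut_fderiv {h : ℝ → ℝ} (hs : IsSupport h) (w : ℝ × ℝ) :
    HasFDerivAt (t0pOut h) ((ContinuousLinearMap.snd ℝ ℝ ℝ).prod (fderiv ℝ (fun x : ℝ × ℝ => pOut h x.1 x.2) w)) w :=
  hasFDerivAt_snd.prodMk (t0p_differentiable_pOut hs w).hasFDerivAt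

theorem t0pIn_det {h : ℝ → ℝ} (hs : IsSupport h) (w : ℝ × ℝ) :
    ((ContinuousLinearMap.fst ℝ ℝ ℝ).prod (fderiv ℝ (fun x : ℝ × ℝ => pIn h x.1 x.2) w)).det = -t0pRho h w := by
  rw [t0p_det_fst_prod]
  have h1 : HasDerivAt (fun c : ℝ => ((w.1, c) : ℝ × ℝ)) (0, 1) w.2 := (hasDerivAt_const w.2 w.1).prodMk (hasDerivAt_id w.2)
  have h2 := (t0p_differentiable_pIn hs w).hasFDerivAt.comp_hasDerivAt w.2 h1
  have h3 := h2.unique (t0_hasDerivAt_pIn_snd hs w.1 w.2)
  rw [h3, t0pRho]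
  ring

theorem t0pOut_det {h : ℝ → ℝ} (hs : IsSupport h) (w : ℝ × ℝ) :
    ((ContinuousLinearMap.snd ℝ ℝ ℝ).prod (fderiv ℝ (fun x : ℝ × ℝ => pOut h x.1 x.2) w)).det = -t0pRho h w := by
  rw [t0p_det_snd_prod]
  have h1 : HasDerivAt (fun a : ℝ => ((a, w.2) : ℝ × ℝ)) (1, 0) w.1 := (hasDerivAt_id w.1).prodMk (hasDerivAt_const w.1 w.2)
  have h2 := (t0p_differentiable_pOut hs w).hasFDerivAt.comp_hasDerivAt w.1 h1
  have h3 := h2.unique (t0_hasDerivAt_pOut_fst hs w.1 w.2)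
  rw [h3, t0pRho]

theorem t0pIn_injOn {h : ℝ → ℝ} (hs : IsSupport h) : Set.InjOn (t0pIn h) wedge := by
  intro w hw w' hw' e
  simp only [t0pIn, Prod.mk.injEq] at e
  obtain ⟨e1, e2⟩ := e
  rw [← e1] at e2
  have := t0_pIn_inj hs hw.1.le hw.2.le (by rw [e1]; exact hw'.1.le) (by rw [e1]; exact hw'.2.le) e2
  exact Prod.ext e1 this

theorem t0pOut_injOn {h : ℝ → ℝ} (hs : IsSupport h) : Set.InjOn (t0pOut h) wedge := by
  intro w hw w' hw' e
  simp only [t0pOut, Prod.mk.injEq] at e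
  obtain ⟨e1, e2⟩ := e
  rw [← e1] at e2
  have := t0_pOut_inj hs hw.1.le hw.2.le (by rw [e1]; exact hw'.1.le) (by rw [e1]; exact hw'.2.le) e2
  exact Prod.ext this e1

theorem t0pMu_apply (h : ℝ → ℝ) {E : Set (ℝ × ℝ)} (hE : MeasurableSet E) :
    t0pMu h E = ∫⁻ w in E ∩ wedge, ENNReal.ofReal |t0pRho h w| := by
  rw [t0pMu, withDensity_apply _ hE, Measure.restrict_restrict hE]

theorem t0pMu_in {h : ℝ → ℝ} (hs : IsSupport h) {E : Set (ℝ × ℝ)} (hE : MeasurableSet E) :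
    t0pMu h E = volume (t0pIn h '' (E ∩ wedge)) := by
  rw [t0pMu_apply h hE, ← lintegral_abs_det_fderiv_eq_addHaar_image volume (hE.inter t0_isOpen_wedge.measurableSet)
    (fun w _ => (t0pIn_fderiv hs w).hasFDerivWithinAt) ((t0pIn_injOn hs).mono Set.inter_subset_right)]
  simp only [t0pIn_det hs, abs_neg]

theorem t0pMu_out {h : ℝ → ℝ} (hs : IsSupport h) {E : Set (ℝ × ℝ)} (hE : MeasurableSet E) :
    t0pMu h E = volume (t0pOut h '' (E ∩ wedge)) := by
  rw [t0pMu_apply h hE, ← lintegral_abs_det_fderiv_eq_addHaar_image volume (hE.inter t0_isOpen_wedge.measurableSet)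
    (fun w _ => (t0pOut_fderiv hs w).hasFDerivWithinAt) ((t0pOut_injOn hs).mono Set.inter_subset_right)]
  simp only [t0pOut_det hs, abs_neg]

theorem t0pIn_lineMap {h : ℝ → ℝ} (hs : IsSupport h) {w : ℝ × ℝ} (hw : w ∈ wedge) :
    t0pIn h (lineMap h w) = t0pOut h w := by
  simp only [t0pIn, t0pOut, lineMap]
  rw [(t0_nxt_spec hs (a := w.1) (b := w.2) hw).2.2]

theorem t0pIn_shift {h : ℝ → ℝ} (hs : IsSupport h) (w : ℝ × ℝ) :
    t0pIn h (w + ((2 * π, 2 * π) : ℝ × ℝ)) = t0pIn h w + ((2 * π, 0) : ℝ × ℝ) := by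
  simp only [t0pIn, Prod.fst_add, Prod.snd_add, t0_pIn_shift hs, Prod.mk_add_mk, add_zero]

theorem t0p_measure {h : ℝ → ℝ} (hs : IsSupport h) :
    ∃ (μ : Measure (ℝ × ℝ)) (T : ℝ × ℝ → ℝ × ℝ), SigmaFinite μ ∧ MeasurePreserving T μ μ ∧
      (∀ w ∈ wedge, T w = lineMap h w) ∧ (∀ w, w ∉ wedge → T w = w) ∧
      MeasurePreserving (fun w : ℝ × ℝ => w + ((2 * π, 2 * π) : ℝ × ℝ)) μ μ ∧
      (∀ O : Set (ℝ × ℝ), IsOpen O → O ⊆ wedge → O.Nonempty → μ O ≠ 0) ∧
      (∀ S : Set (ℝ × ℝ), Bornology.IsBounded S → μ S ≠ ⊤) := by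
  classical
  set T : ℝ × ℝ → ℝ × ℝ := wedge.piecewise (lineMap h) id with hT
  have hT1 : ∀ w ∈ wedge, T w = lineMap h w := fun w hw => Set.piecewise_eq_of_mem _ _ _ hw
  have hT2 : ∀ w, w ∉ wedge → T w = w := fun w hw => Set.piecewise_eq_of_notMem _ _ _ hw
  have hTm : Measurable T :=
    (t0_lineMap_continuousOn hs).measurable_piecewise continuous_id.continuousOn t0_isOpen_wedge.measurableSet
  refine ⟨t0pMu h, T, ?_, ⟨hTm, ?_⟩, hT1, hT2, ⟨measurable_add_const _, ?_⟩, ?_, ?_⟩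
  · unfold t0pMu
    infer_instance
  · ext E hE
    rw [Measure.map_apply hTm hE, t0pMu_out hs (hTm hE), t0pMu_in hs hE]
    congr 1
    ext y
    constructor
    · rintro ⟨w, ⟨hwE, hw⟩, rfl⟩
      refine ⟨lineMap h w, ⟨?_, t0_lineMap_mem hs hw⟩, t0pIn_lineMap hs hw⟩
      rw [← hT1 w hw]
      exact hwE
    · rintro ⟨w', ⟨hwE, hw'⟩, rfl⟩
      obtain ⟨w, hw, rfl⟩ := t0_lineMap_surjOn hs hw'
      refine ⟨w, ⟨?_, hw⟩, (t0pIn_lineMap hs hw).symm⟩
      show T w ∈ E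
      rw [hT1 w hw]
      exact hwE
  · ext E hE
    rw [Measure.map_apply (measurable_add_const _) hE, t0pMu_in hs ((measurable_add_const _) hE), t0pMu_in hs hE,
      ← measure_preimage_add_right volume ((2 * π, 0) : ℝ × ℝ) (t0pIn h '' (E ∩ wedge))]
    congr 1
    ext y
    constructor
    · rintro ⟨w, ⟨hwE, hw⟩, rfl⟩
      exact ⟨w + ((2 * π, 2 * π) : ℝ × ℝ), ⟨hwE, t0_wedge_shift hw _⟩, t0pIn_shift hs w⟩
    · rintro ⟨w', ⟨hwE, hw'⟩, e⟩
      have e0 : w' + (-(2 * π), -(2 * π)) + ((2 * π, 2 * π) : ℝ × ℝ) = w' := by ext <;> simp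
      refine ⟨w' + (-(2 * π), -(2 * π)), ⟨?_, t0_wedge_shift hw' _⟩, ?_⟩
      · show w' + (-(2 * π), -(2 * π)) + ((2 * π, 2 * π) : ℝ × ℝ) ∈ E
        rw [e0]
        exact hwE
      · have := t0pIn_shift hs (w' + (-(2 * π), -(2 * π)))
        rw [e0, e] at this
        exact (add_right_cancel this).symm
  · intro O hO hOw hne h0
    have hm : Measurable fun w => ENNReal.ofReal |t0pRho h w| := (t0pRho_cont hs).abs.measurable.ennreal_ofReal
    rw [t0pMu, withDensity_apply_eq_zero hm] at h0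
    have e : {x | ENNReal.ofReal |t0pRho h x| ≠ 0} ∩ O = O := by
      apply Set.inter_eq_right.2
      intro w hw
      have := t0pRho_pos hs (hOw hw)
      simp only [Set.mem_ofPred_eq, ne_eq, ENNReal.ofReal_eq_zero, not_le]
      exact abs_pos.2 this.ne'
    rw [e, Measure.restrict_apply hO.measurableSet, Set.inter_eq_left.2 hOw] at h0
    exact (hO.measure_pos volume hne).ne' h0
  · intro S hS
    obtain ⟨R, hR⟩ := hS.subset_closedBall 0
    have h1 : t0pMu h S ≤ t0pMu h (Metric.closedBall 0 R) := measure_mono hR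
    have hc : Continuous (t0pIn h) := by
      unfold t0pIn
      exact continuous_fst.prodMk (t0_continuous_pIn hs)
    have h2 : t0pMu h (Metric.closedBall 0 R) ≤ volume (t0pIn h '' Metric.closedBall 0 R) := by
      rw [t0pMu_in hs Metric.isClosed_closedBall.measurableSet]
      exact measure_mono (Set.image_mono Set.inter_subset_left)
    have h3 : volume (t0pIn h '' Metric.closedBall 0 R) < ⊤ :=
      ((isCompact_closedBall (0 : ℝ × ℝ) R).image hc).measure_lt_top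
    exact ((h1.trans h2).trans_lt h3).ne

end Claimed.Agent.R269
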