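/-
Row 269, front end T0' (S0511), HOST-FREE LEAF  LF-T0p-NoWander.        Sub-captain: helper113.
Poincare recurrence for a set of positive measure, modulo a group `ℤ v` of translations commuting with the dynamics, when all
preimages of the set are covered by the translates of ONE set `F` of finite measure.

PROOF.  Put `E j n := (T^[j]) ⁻¹' B + n v` (= `{x | T^[j] (x - n v) ∈ B}`; by `hcomm`, `T^[j] (x + n v) = T^[j] x + n v`).
Assume the conclusion fails.  Then the sets `E j n`, `(j, n) ∈ ℕ × ℤ`, are pairwise disjoint: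
  same `j`, `n ≠ n'`: from `hself`;     `i < j`: `x - n v ∈ (T^[i])⁻¹' B`, put `y = T^[i] (x - n v) ∈ B`; then
  `T^[j - i] y = T^[j] (x - n v) = T^[j] (x - n' v) + (n' - n) v ∈ B + (n' - n) v`: this is the conclusion.
Each has measure `M B` (`hT.iterate`, `hv`).  From `hcov`:  `M B = M ((T^[j])⁻¹' B) ≤ ∑' n, M ((T^[j])⁻¹' B ∩ (F + n v)) = ∑' n, M (E j (-n) ∩ F)`.
Hence `∑' j, M B ≤ ∑' (j, n), M (E j n ∩ F) = M (⋃ … ∩ F) ≤ M F < ∞`, so `M B = 0`.
-/
import Mathlib

set_option autoImplicit false

namespace Claimed.Agent.R269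

open MeasureTheory

/-- all integer multiples of `v` preserve the measure -/
theorem t0p_nw_shift {X : Type} [AddCommGroup X] [MeasurableSpace X] [MeasurableAdd X] (M : Measure X)
    (v : X) (hv : MeasurePreserving (fun x => x + v) M M) (n : ℤ) :
    MeasurePreserving (fun x => x + n • v) M M := by
  have hneg : MeasurePreserving (fun x => x + -v) M M := by
    have h := MeasurePreserving.symm (MeasurableEquiv.addRight v) (μa := M) (μb := M) hv
    have e : ((MeasurableEquiv.addRight v).symm : X → X) = fun x => x + -v := by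
      funext x
      simp [MeasurableEquiv.symm_addRight]
    rwa [e] at h
  induction n using Int.induction_on with
  | zero =>
    have e : (fun x : X => x + (0 : ℤ) • v) = id := by
      funext x
      simp
    rw [e]
    exact MeasurePreserving.id M
  | succ n ih =>
    have h := hv.comp ih
    have e : ((fun x => x + v) ∘ fun x => x + (n : ℤ) • v) = fun x => x + ((n : ℤ) + 1) • v := by
      funext x
      simp only [Function.comp, add_smul, one_smul, add_assoc]
    rwa [e] at h
  | pred n ih =>
    have h := hneg.comp ih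
    have e : ((fun x => x + -v) ∘ fun x => x + (-(n : ℤ)) • v) = fun x => x + (-(n : ℤ) - 1) • v := by
      funext x
      simp only [Function.comp]
      rw [sub_smul, one_smul]
      abel
    rwa [e] at h

/-- the dynamics commutes with all integer multiples of `v` -/
theorem t0p_nw_comm {X : Type} [AddCommGroup X] (T : X → X) (v : X)
    (hcomm : ∀ x, T (x + v) = T x + v) (j : ℕ) (n : ℤ) (x : X) :
    T^[j] (x + n • v) = T^[j] x + n • v := by
  have h1 : ∀ (n : ℤ) (x : X), T (x + n • v) = T x + n • v := by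
    intro n
    induction n using Int.induction_on with
    | zero => intro x; simp
    | succ n ih =>
      intro x
      rw [add_smul, one_smul, ← add_assoc, hcomm, ih, add_assoc]
    | pred n ih =>
      intro x
      have h2 := hcomm (x + (-(n : ℤ) - 1) • v)
      have e : x + (-(n : ℤ) - 1) • v + v = x + (-(n : ℤ)) • v := by
        rw [sub_smul, one_smul]; abel
      rw [e, ih] at h2
      rw [sub_smul, one_smul]
      have h3 : T (x + (-(n : ℤ) - 1) • v) = T x + -(n : ℤ) • v - v := by
        rw [h2]; abel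
      rw [sub_smul, one_smul] at h3
      rw [h3]; abel
  induction j generalizing x with
  | zero => rfl
  | succ j ih => rw [Function.iterate_succ_apply, h1, ih, ← Function.iterate_succ_apply]

theorem t0p_nowander {X : Type} [AddCommGroup X] [MeasurableSpace X] [MeasurableAdd X] (M : Measure X)
    (T : X → X) (hT : MeasurePreserving T M M) (v : X)
    (hv : MeasurePreserving (fun x => x + v) M M) (hcomm : ∀ x, T (x + v) = T x + v)
    (B F : Set X) (hB : MeasurableSet B) (hF : MeasurableSet F) (hB0 : M B ≠ 0) (hFfin : M F ≠ ⊤)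
    (hcov : ∀ (j : ℕ) (x : X), T^[j] x ∈ B → ∃ n : ℤ, x + n • v ∈ F)
    (hself : ∀ (n : ℤ) (x : X), n ≠ 0 → x ∈ B → x + n • v ∉ B) :
    ∃ (j : ℕ) (n : ℤ) (x : X), 1 ≤ j ∧ x ∈ B ∧ T^[j] x + n • v ∈ B := by
  by_contra hcon
  push Not at hcon
  have hsh := t0p_nw_shift M v hv
  have hcm := t0p_nw_comm T v hcomm
  have hmp : ∀ (j : ℕ) (n : ℤ), MeasurePreserving (fun x => T^[j] (x + n • v)) M M := fun j n =>
    (hT.iterate j).comp (hsh n)
  -- the sets `E j n`
  set E : ℕ → ℤ → Set X := fun j n => (fun x => T^[j] (x + n • v)) ⁻¹' B with hE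
  have hEm : ∀ j n, MeasurableSet (E j n) := fun j n => (hmp j n).measurable hB
  have hEB : ∀ j n, M (E j n) = M B := fun j n => (hmp j n).measure_preimage hB.nullMeasurableSet
  -- disjointness
  have hlt : ∀ (i j : ℕ) (n n' : ℤ), i < j → Disjoint (E i n) (E j n') := by
    intro i j n n' hij
    rw [Set.disjoint_left]
    intro x hx hx'
    refine hcon (j - i) (n' - n) (T^[i] (x + n • v)) (by omega) hx ?_
    rw [← Function.iterate_add_apply, Nat.sub_add_cancel hij.le, ← hcm]
    have e : x + n • v + (n' - n) • v = x + n' • v := by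
      rw [sub_smul]; abel
    rw [e]
    exact hx'
  have hdisj : Pairwise (Function.onFun Disjoint fun p : ℕ × ℤ => E p.1 p.2 ∩ F) := by
    rintro ⟨i, n⟩ ⟨j, n'⟩ hne
    refine Disjoint.mono Set.inter_subset_left Set.inter_subset_left ?_
    rcases lt_trichotomy i j with hij | hij | hij
    · exact hlt i j n n' hij
    · subst hij
      have hnn : n' - n ≠ 0 := by
        intro h0
        apply hne
        rw [sub_eq_zero.1 h0]
      rw [Set.disjoint_left]
      intro x hx hx'
      refine hself (n' - n) _ hnn hx ?_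
      rw [← hcm]
      have e : x + n • v + (n' - n) • v = x + n' • v := by
        rw [sub_smul]; abel
      rw [e]
      exact hx'
    · exact (hlt j i n' n hij).symm
  -- covering
  have hle : ∀ j : ℕ, M B ≤ ∑' n : ℤ, M (E j n ∩ F) := by
    intro j
    have hsub : E j 0 ⊆ ⋃ n : ℤ, (E j 0 ∩ (fun x => x + n • v) ⁻¹' F) := by
      intro x hx
      have hx' : T^[j] x ∈ B := by simpa [hE] using hx
      obtain ⟨n, hn⟩ := hcov j x hx'
      exact Set.mem_iUnion.2 ⟨n, hx, hn⟩
    have e1 : ∀ n : ℤ, M (E j 0 ∩ (fun x => x + n • v) ⁻¹' F) = M (E j (-n) ∩ F) := by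
      intro n
      rw [← (hsh n).measure_preimage ((hEm j (-n)).inter hF).nullMeasurableSet, Set.preimage_inter]
      congr 2
      ext x
      simp only [hE, Set.mem_preimage, zero_smul, add_zero, neg_smul, add_neg_cancel_right]
    calc M B = M (E j 0) := (hEB j 0).symm
      _ ≤ M (⋃ n : ℤ, (E j 0 ∩ (fun x => x + n • v) ⁻¹' F)) := measure_mono hsub
      _ ≤ ∑' n : ℤ, M (E j 0 ∩ (fun x => x + n • v) ⁻¹' F) := measure_iUnion_le _
      _ = ∑' n : ℤ, M (E j (-n) ∩ F) := tsum_congr e1
      _ = ∑' n : ℤ, M (E j n ∩ F) := (Equiv.neg ℤ).tsum_eq (fun n => M (E j n ∩ F))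
  have htop : ∑' _ : ℕ, M B = ⊤ := ENNReal.tsum_const_eq_top_of_ne_zero hB0
  have hfin : ∑' _ : ℕ, M B ≤ M F := by
    calc ∑' _ : ℕ, M B ≤ ∑' j : ℕ, ∑' n : ℤ, M (E j n ∩ F) := ENNReal.tsum_le_tsum hle
      _ = ∑' p : ℕ × ℤ, M (E p.1 p.2 ∩ F) := (ENNReal.tsum_prod (f := fun j n => M (E j n ∩ F))).symm
      _ = M (⋃ p : ℕ × ℤ, E p.1 p.2 ∩ F) :=
          (measure_iUnion hdisj fun p => (hEm p.1 p.2).inter hF).symm
      _ ≤ M F := measure_mono (Set.iUnion_subset fun p => Set.inter_subset_right)
  rw [htop, top_le_iff] at hfin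
  exact hFfin hfin

end Claimed.Agent.R269
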