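/-
Row 269, front end T0' (S0511), LEAF  LF-T0p-Pair :  the argument function on the space of pairs.        Sub-captain: helper113.
Uses T0p/Defs, Fol, ArgLift, Barrier (statements).     Source: P2 geometry.tex l.160-236 (here: ONE lift on the 4-dimensional space of all pairs on distinct leaves).

PLAN.
(0) algebra: `prPsi Z (prK G q) = (lineMap h (Z q.1), lineMap h (Z (q.2.1, prU q)))` (`conj`; `prU (prK G q) = prU q`), `prD Z (prS n q) = prD Z q`, `prK`, `prS` commute, continuity of `prD Z`, `prK G`.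
(1) `prD Z q ≠ 0`: `Z` injective and `q.1.2 ≠ prU q` (`exp > 0`).
(2) `A` from `t0p_arg_lift` on `E = PrSp`.
(3) hypotheses of `t0p_barrier`: `hstep` : `(prD Z (prK G q)).1 = (prD Z q).2` by (0) and `lineMap h w = (w.2, _)`;   `htw` = `t0p_twist`.
(4) normalisation.  Fix the leaves `u = 0`, `v = 0`.  `C` from `t0p_Z_bound`, `C'` from `t0p_G_bound` for `S = {0, 1}` (`prU = 0 + exp 0 = 1`).  On `R = {((α, 0), (β, 0)) | β - α ≥ 2 C + 1}` (continuous image of a convex set,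
    hence preconnected) both coordinates of `prD Z` are `≥ 1 > 0`, so `cos (A q) > 0`, `sin (A q) > 0`;  `t0p_quadrant`: `|A q - A q'| < π/2` on `R`.
    `q₀ = ((0, 0), (2 C + 2 C' + 1, 0))`: `q₀ ∈ R`, `prK G q₀ ∈ R`, `prS n q₀ ∈ R`.
(5) `A (prS n q) - A q ∈ 2π ℤ` (same `cos`, `sin`: `Real.cos_eq_cos_iff`/`Complex.exp` or `Real.Angle`), continuous, so constant (`t0p_const_of_int`), `= 0` at `q₀`.
(6) `t0p_psi_emb`: `q ↦ (q.1, (q.2.1, prU q))` is an `IsOpenEmbedding` (homeomorphism of `ℝ⁴` onto the `IsOpen` set `{u < u'}`, inverse `v = log (u' - u)`), composed with `emb.prodMap emb`.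
-/
import Claimed.Agent.R269.T0p.Fol
import Claimed.Agent.R269.T0p.ArgLift
import Claimed.Agent.R269.T0p.Barrier

set_option autoImplicit false

namespace Claimed.Agent.R269

open Real

variable {h : ℝ → ℝ} {Z : ℝ × ℝ → ℝ × ℝ} {G : ℝ × ℝ → ℝ}

theorem t0p_prU_K (G : ℝ × ℝ → ℝ) (q : PrSp) : prU (prK G q) = prU q := rfl

theorem t0p_prU_S (n : ℤ) (q : PrSp) : prU (prS n q) = prU q := rfl

theorem t0p_psi_K (F : LiftedFol h Z G) (q : PrSp) :
    prPsi Z (prK G q) = (lineMap h (prPsi Z q).1, lineMap h (prPsi Z q).2) := by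
  obtain ⟨⟨α, u⟩, ⟨β, v⟩⟩ := q
  simp only [prPsi, prK, F.conj]
  rfl

theorem t0p_psi_S (F : LiftedFol h Z G) (n : ℤ) (q : PrSp) :
    prPsi Z (prS n q) = prPsi Z q + (((n * (2 * π), n * (2 * π)), (n * (2 * π), n * (2 * π))) : (ℝ × ℝ) × (ℝ × ℝ)) := by
  obtain ⟨⟨α, u⟩, ⟨β, v⟩⟩ := q
  simp only [prPsi, prS, t0p_Z_shift_int F, Prod.mk_add_mk]
  rw [show prU ((α + n * (2 * π), u), (β + n * (2 * π), v)) = prU ((α, u), (β, v)) from rfl]

theorem t0p_K_S (F : LiftedFol h Z G) (n : ℤ) (q : PrSp) : prK G (prS n q) = prS n (prK G q) := by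
  obtain ⟨⟨α, u⟩, ⟨β, v⟩⟩ := q
  simp only [prK, prS, t0p_G_shift_int F]
  rw [show prU ((α + n * (2 * π), u), (β + n * (2 * π), v)) = prU ((α, u), (β, v)) from rfl]

theorem t0p_prU_cont : Continuous prU := by
  unfold prU
  fun_prop

theorem t0p_K_cont (F : LiftedFol h Z G) : Continuous (prK G) := by
  have h1 := F.G_cont
  have h2 := t0p_prU_cont
  unfold prK
  fun_prop

/-- iterates of the pair dynamics. -/
theorem t0p_K_iter (G : ℝ × ℝ → ℝ) (q : PrSp) (j : ℕ) :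
    (prK G)^[j] q = ((foIt G q.1.2 j q.1.1, q.1.2), (foIt G (prU q) j q.2.1, q.2.2)) := by
  induction j with
  | zero => rfl
  | succ j ih =>
    rw [Function.iterate_succ_apply', ih, t0p_it_succ, t0p_it_succ]
    rfl

theorem t0p_exp_emb : Topology.IsOpenEmbedding Real.exp := by
  refine ⟨Real.exp_strictMono.isEmbedding_of_ordConnected ?_, ?_⟩
  · rw [Real.range_exp]
    exact Set.ordConnected_Ioi
  · rw [Real.range_exp]
    exact isOpen_Ioi

/-- the shear `((α, u), (β, t)) ↦ ((α, u), (β, u + t))`. -/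
noncomputable def t0pShear : PrSp ≃ₜ PrSp where
  toFun q := (q.1, (q.2.1, q.1.2 + q.2.2))
  invFun q := (q.1, (q.2.1, q.2.2 - q.1.2))
  left_inv q := by
    obtain ⟨⟨α, u⟩, ⟨β, v⟩⟩ := q
    simp
  right_inv q := by
    obtain ⟨⟨α, u⟩, ⟨β, v⟩⟩ := q
    simp
  continuous_toFun := by fun_prop
  continuous_invFun := by fun_prop

theorem t0p_psi_emb (F : LiftedFol h Z G) : Topology.IsOpenEmbedding (prPsi Z) := by
  have h1 : Topology.IsOpenEmbedding (Prod.map (id : ℝ × ℝ → ℝ × ℝ) (Prod.map (id : ℝ → ℝ) Real.exp)) :=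
    Topology.IsOpenEmbedding.id.prodMap (Topology.IsOpenEmbedding.id.prodMap t0p_exp_emb)
  have h2 := (F.emb.prodMap F.emb).comp (t0pShear.isOpenEmbedding.comp h1)
  exact h2

theorem t0p_prD_cont (F : LiftedFol h Z G) : Continuous (prD Z) := by
  have h1 := F.emb.continuous
  have h2 := t0p_prU_cont
  unfold prD
  fun_prop

theorem t0p_prD_ne (F : LiftedFol h Z G) (q : PrSp) : prD Z q ≠ 0 := by
  intro h0
  unfold prD at h0
  rw [sub_eq_zero] at h0
  have h1 := congrArg Prod.snd (F.emb.injective h0)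
  simp only [prU] at h1
  have := exp_pos q.2.2
  linarith

theorem t0p_prD_eq (Z : ℝ × ℝ → ℝ × ℝ) (q : PrSp) : prD Z q = (prPsi Z q).2 - (prPsi Z q).1 := rfl

theorem t0p_prD_S (F : LiftedFol h Z G) (n : ℤ) (q : PrSp) : prD Z (prS n q) = prD Z q := by
  rw [t0p_prD_eq, t0p_prD_eq, t0p_psi_S F]
  simp

theorem t0p_polar_unique {r r' a a' : ℝ} (hr : 0 < r) (hr' : 0 < r')
    (e : ((r * cos a, r * sin a) : ℝ × ℝ) = (r' * cos a', r' * sin a')) : ∃ n : ℤ, a = a' + n * (2 * π) := by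
  have e1 : r * cos a = r' * cos a' := congrArg Prod.fst e
  have e2 : r * sin a = r' * sin a' := congrArg Prod.snd e
  have h1 : r ^ 2 = r' ^ 2 := by
    have a1 := sin_sq_add_cos_sq a
    have a2 := sin_sq_add_cos_sq a'
    have : r ^ 2 * (sin a ^ 2 + cos a ^ 2) = r' ^ 2 * (sin a' ^ 2 + cos a' ^ 2) := by
      have : r ^ 2 * (sin a ^ 2 + cos a ^ 2) = (r * sin a) ^ 2 + (r * cos a) ^ 2 := by ring
      rw [this, e1, e2]
      ring
    rwa [a1, a2, mul_one, mul_one] at this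
  have h2 : r = r' := by nlinarith
  subst h2
  apply t0_nvec_inj
  unfold nvec
  rw [mul_left_cancel₀ hr.ne' e1, mul_left_cancel₀ hr.ne' e2]

/-- **the argument function**: continuous, invariant under the deck translations, and with the barrier property. -/
theorem t0p_pair_arg (F : LiftedFol h Z G) (hs : IsSupport h) :
    ∃ A : PrSp → ℝ, Continuous A ∧
      (∀ q, ∃ r : ℝ, 0 < r ∧ prD Z q = (r * cos (A q), r * sin (A q))) ∧
      (∀ (n : ℤ) (q : PrSp), A (prS n q) = A q) ∧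
      (∀ (m : ℤ) (q : PrSp), A q ≤ π / 2 + m * π → A (prK G q) < π / 2 + m * π) := by
  have hπ := pi_pos
  obtain ⟨A, hA, hDA⟩ := t0p_arg_lift (prD Z) (t0p_prD_cont F) (t0p_prD_ne F)
  have hS2 : IsCompact ({0, 1} : Set ℝ) := ((Set.finite_singleton (1 : ℝ)).insert 0).isCompact
  obtain ⟨C, hC⟩ := t0p_Z_bound F {0, 1} hS2
  obtain ⟨C', hC'⟩ := t0p_G_bound F {0, 1} hS2
  have hC0 : 0 ≤ C := (abs_nonneg _).trans (hC 0 (by simp) 0).1
  have hC'0 : 0 ≤ C' := (abs_nonneg _).trans (hC' 0 (by simp) 0)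
  -- the region of far apart pairs on the leaves `0` and `1`
  set R : Set PrSp := {q | q.1.2 = 0 ∧ q.2.2 = 0 ∧ 2 * C + 1 ≤ q.2.1 - q.1.1} with hR
  have hRc : IsPreconnected R := by
    apply Convex.isPreconnected
    rintro ⟨⟨α, u⟩, ⟨β, v⟩⟩ ⟨x1, x2, x3⟩ ⟨⟨α', u'⟩, ⟨β', v'⟩⟩ ⟨y1, y2, y3⟩ a b ha hb hab
    simp only at x1 x2 x3 y1 y2 y3
    subst x1 x2 y1 y2
    refine ⟨by simp, by simp, ?_⟩
    simp only [Prod.smul_mk, Prod.mk_add_mk, smul_eq_mul]
    have : 2 * C + 1 = a * (2 * C + 1) + b * (2 * C + 1) := by rw [← add_mul, hab, one_mul]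
    nlinarith
  have hRD : ∀ q ∈ R, 1 ≤ (prD Z q).1 ∧ 1 ≤ (prD Z q).2 := by
    rintro ⟨⟨α, u⟩, ⟨β, v⟩⟩ ⟨x1, x2, x3⟩
    simp only at x1 x2 x3
    subst x1 x2
    have e : prU ((α, 0), (β, 0)) = 1 := by simp [prU]
    simp only [prD, e, Prod.fst_sub, Prod.snd_sub]
    have a1 := hC 0 (by simp) α
    have a2 := hC 1 (by simp) β
    have b1 := abs_le.1 a1.1
    have b2 := abs_le.1 a1.2
    have b3 := abs_le.1 a2.1
    have b4 := abs_le.1 a2.2
    constructor <;> linarith [b1.1, b1.2, b2.1, b2.2, b3.1, b3.2, b4.1, b4.2]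
  have hRcos : ∀ q ∈ R, 0 < cos (A q) := by
    intro q hq
    obtain ⟨r, hr, e⟩ := hDA q
    have := (hRD q hq).1
    rw [e] at this
    simp only at this
    by_contra hc
    push Not at hc
    nlinarith
  have hRsin : ∀ q ∈ R, 0 < sin (A q) := by
    intro q hq
    obtain ⟨r, hr, e⟩ := hDA q
    have := (hRD q hq).2
    rw [e] at this
    simp only at this
    by_contra hc
    push Not at hc
    nlinarith
  have hquad := t0p_quadrant A R hRc hA.continuousOn hRcos hRsin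
  set q₀ : PrSp := ((0, 0), (2 * C + 2 * C' + 1, 0)) with hq₀
  have hq₀R : q₀ ∈ R := ⟨rfl, rfl, by simp only [hq₀]; linarith⟩
  have hKq₀R : prK G q₀ ∈ R := by
    refine ⟨rfl, rfl, ?_⟩
    have e : prU ((0, 0), (2 * C + 2 * C' + 1, 0)) = 1 := by simp [prU]
    simp only [prK, hq₀, e]
    have a1 := abs_le.1 (hC' 0 (by simp) 0)
    have a2 := abs_le.1 (hC' 1 (by simp) (2 * C + 2 * C' + 1))
    linarith [a1.1, a1.2, a2.1, a2.2]
  have hSq₀R : ∀ n : ℤ, prS n q₀ ∈ R := by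
    intro n
    refine ⟨rfl, rfl, ?_⟩
    simp only [prS, hq₀]
    linarith
  have hstep : ∀ q, (prD Z (prK G q)).1 = (prD Z q).2 := by
    intro q
    rw [t0p_prD_eq, t0p_prD_eq, t0p_psi_K F]
    rfl
  have htw : ∀ q, (prD Z q).2 = 0 → (prD Z q).1 * (prD Z (prK G q)).2 < 0 := by
    intro q h0
    have hne : q.1 ≠ (q.2.1, prU q) := by
      intro e
      have h1 := congrArg Prod.snd e
      simp only [prU] at h1
      have := exp_pos q.2.2
      linarith
    have e1 : (Z q.1).2 = (Z (q.2.1, prU q)).2 := by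
      simp only [prD, Prod.snd_sub] at h0
      linarith
    have := t0p_twist F hs _ _ hne e1
    rw [t0p_prD_eq Z (prK G q), t0p_psi_K F]
    exact this
  have hq := abs_lt.1 (hquad _ hKq₀R _ hq₀R)
  obtain ⟨-, hbar⟩ := t0p_barrier (prD Z) A (prK G) hA (t0p_K_cont F) hDA hstep htw q₀ (by linarith [hq.1]) hq.2
  refine ⟨A, hA, hDA, fun n q => ?_, hbar⟩
  have hSc : Continuous (prS n) := by
    unfold prS
    fun_prop
  have hint : ∀ q, ∃ m : ℤ, A (prS n q) - A q = m * (2 * π) := by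
    intro q
    obtain ⟨r, hr, e⟩ := hDA q
    obtain ⟨r', hr', e'⟩ := hDA (prS n q)
    rw [t0p_prD_S F, e] at e'
    obtain ⟨m, hm⟩ := t0p_polar_unique hr' hr e'.symm
    exact ⟨m, by linarith⟩
  have hconst := t0p_const_of_int (fun q => A (prS n q) - A q) ((hA.comp hSc).sub hA) hint q q₀
  obtain ⟨m, hm⟩ := hint q₀
  have hq' := abs_lt.1 (hquad _ (hSq₀R n) _ hq₀R)
  rw [hm] at hq'
  have hm0 : m = 0 := by
    have h1 : (-1 : ℝ) < m := by
      by_contra hc
      push Not at hc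
      nlinarith [hq'.1]
    have h2 : (m : ℝ) < 1 := by
      by_contra hc
      push Not at hc
      nlinarith [hq'.2]
    have h3 : -1 < m := by exact_mod_cast h1
    have h4 : m < 1 := by exact_mod_cast h2
    omega
  rw [hm, hm0] at hconst
  simp only [Int.cast_zero, zero_mul] at hconst
  linarith

end Claimed.Agent.R269
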