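/-
Row 269, front end T0' (S0511), LEAF  LF-T0p-Plateau :  the translation number is not constant on any interval of leaves.        Sub-captain: helper113.
Uses T0p/Pair, Fol, Measure, NoWander, Barrier (statements).     (Replaces P2 geometry.tex l.262-318: no pair cover, no pointwise recurrence.)

PROOF.  Assume `ρ` is constant on `(u₁, u₂)`.   `A` from `t0p_pair_arg`;  `μ, T` from `t0p_measure`.
(1) a pair on a barrier.  Choose `u₁ < u < u' < u₂`, `v = log (u' - u)`.   `β ↦ (Z (β, u')).1 - (Z (0, u)).1` is continuous and unbounded in both directions (`t0p_Z_bound`), so it vanishes at some `β`: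
    `q₁ = ((0, u), (β, v))` has `(prD Z q₁).1 = 0`, so `cos (A q₁) = 0`, `A q₁ = π/2 + m π =: a` (`Real.cos_eq_zero_iff`);  barrier: `A (prK G q₁) < a`.
(2) `t0p_perturb`: a pair `q₂` near `q₁` with `A q₂ > a`.   `N := {q | |A q - a| < π/2}` is a neighbourhood of `q₁`; `prPsi Z '' N` is a neighbourhood of `prPsi Z q₁ = (w₁, w₂)` (`t0p_psi_emb`), so it contains
    `(w₁, w₂ + (ε, 0))` for all small `|ε|`: `= prPsi Z q_ε`, `prD Z q_ε = (ε, y)`, so `cos (A q_ε)` has the sign of `ε`; with `A q_ε = a + t`, `|t| < π/2`: `cos (a + t) = -(-1)^m sin t`.  Take `ε` of the sign `-(-1)^m`.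
(3) `V := {q | a < A q ∧ A (prK G q) < a ∧ u₁ < q.1.2 ∧ prU q < u₂}` is an `IsOpen` set and (2) (applied inside the neighbourhood where the last three conditions hold) gives `q₂ ∈ V`.
    `B₀ ⊆ V`: a neighbourhood of `q₂`, relatively compact, with `prPsi Z '' B₀ ⊆ ball (prPsi Z q₂) 1`.   `B := prPsi Z '' B₀` (`IsOpen`, nonempty, `⊆ wedge ×ˢ wedge`).
(4) `t0p_nowander` with `X = (ℝ×ℝ)×(ℝ×ℝ)`, `M = μ.prod μ`, `Prod.map T T` (`MeasurePreserving.prod`), `v = ((2π,2π),(2π,2π))`, `B`, and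
    `F = {x | x.1 ∈ wedge ∧ x.2 ∈ wedge ∧ 0 ≤ x.1.1 ∧ x.1.1 < 2π ∧ |x.2.1 - x.1.1| ≤ M₀}` (bounded, so `M F ≤ μ (ball) * μ (ball) < ∞`).
    `M B ≠ 0`: `B` contains a product of two nonempty `IsOpen` subsets of `wedge`.     `hself`: `B ⊆ ball _ 1` and `‖n • v‖ ≥ 2π`.
    `hcov`: let `(Prod.map T T)^[j] x ∈ B`.  Then `x.1, x.2 ∈ wedge` (outside `wedge` `T` is the identity and `B ⊆ wedge ×ˢ wedge`), `T^[j] x.1 = Z (α_j, u)`; by `t0p_it_surj` `α_j = foIt G u j α`, so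
    `T^[j] x.1 = T^[j] (Z (α, u))` (`t0p_lineMap_iter`) and `x.1 = Z (α, u)` (`t0_lineMap_injOn`, `t0_lineMap_mem`); same for `x.2 = Z (β, u')`.   `|β - α| ≤ |β_j - α_j| + 4π` (`t0p_rel_bound`, plateau), `|β_j - α_j|` is bounded on `B₀`,
    `|x.2.1 - x.1.1| ≤ |β - α| + 2 C` (`t0p_Z_bound` on the compact set of leaf parameters of `closure B₀`).   `n := -⌊x.1.1 / (2π)⌋`.
(5) conclusion of `t0p_nowander`: `x = prPsi Z q ∈ B`, `q ∈ B₀`, `j ≥ 1`, `(Prod.map T T)^[j] x + n • v = prPsi Z (prS n ((prK G)^[j] q)) ∈ B`, so `prS n ((prK G)^[j] q) ∈ B₀ ⊆ V` (injectivity), hence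
    `a < A ((prK G)^[j] q)`;  but `A (prK G q) < a` and `t0p_barrier_iter` give `A ((prK G)^[j] q) < a`.
-/
import Claimed.Agent.R269.T0p.Pair
import Claimed.Agent.R269.T0p.Measure
import Claimed.Agent.R269.T0p.NoWander

set_option autoImplicit false

namespace Claimed.Agent.R269

open Real MeasureTheory

variable {h : ℝ → ℝ} {Z : ℝ × ℝ → ℝ × ℝ} {G : ℝ × ℝ → ℝ}

/-- two leaves carry states with the same incoming angle. -/
theorem t0p_exists_barrier_pair (F : LiftedFol h Z G) (u v : ℝ) : ∃ β : ℝ, (prD Z ((0, u), (β, v))).1 = 0 := by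
  set u' := u + exp v with hu'
  obtain ⟨C, hC⟩ := t0p_Z_bound F {u'} isCompact_singleton
  have hc : Continuous fun β => (Z (β, u')).1 - (Z (0, u)).1 :=
    (continuous_fst.comp (F.emb.continuous.comp (continuous_id.prodMk continuous_const))).sub continuous_const
  have : (0 : ℝ) ∈ Set.range fun β => (Z (β, u')).1 - (Z (0, u)).1 := by
    apply mem_range_of_exists_le_of_exists_ge hc
    · refine ⟨(Z (0, u)).1 - C, ?_⟩
      have := (abs_le.1 (hC u' rfl ((Z (0, u)).1 - C)).1).2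
      linarith
    · refine ⟨(Z (0, u)).1 + C, ?_⟩
      have := (abs_le.1 (hC u' rfl ((Z (0, u)).1 + C)).1).1
      linarith
  obtain ⟨β, hβ⟩ := this
  exact ⟨β, hβ⟩

/-- perturbation off a barrier. -/
theorem t0p_perturb (F : LiftedFol h Z G) (A : PrSp → ℝ) (hA : Continuous A)
    (hDA : ∀ q, ∃ r : ℝ, 0 < r ∧ prD Z q = (r * cos (A q), r * sin (A q)))
    (m : ℤ) (q₁ : PrSp) (hq₁ : A q₁ = π / 2 + m * π) (N : Set PrSp) (hN : N ∈ nhds q₁) :
    ∃ q₂ ∈ N, π / 2 + m * π < A q₂ := by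
  have hπ := pi_pos
  set a := π / 2 + m * π with ha
  have hcosa : cos a = 0 := by
    rw [Real.cos_eq_zero_iff]
    exact ⟨m, by rw [ha]; ring⟩
  have hsina : sin a ≠ 0 := by
    intro h0
    have := sin_sq_add_cos_sq a
    rw [h0, hcosa] at this
    norm_num at this
  have hN' : N ∩ {q | |A q - a| < π / 2} ∈ nhds q₁ := by
    refine Filter.inter_mem hN ?_
    have hc : Continuous fun q => |A q - a| := (hA.sub continuous_const).abs
    have ho : IsOpen {q | |A q - a| < π / 2} := isOpen_lt hc continuous_const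
    apply ho.mem_nhds
    show |A q₁ - a| < π / 2
    rw [hq₁, sub_self, abs_zero]
    linarith
  have himg : prPsi Z '' (N ∩ {q | |A q - a| < π / 2}) ∈ nhds (prPsi Z q₁) :=
    (t0p_psi_emb F).isOpenMap.image_mem_nhds hN'
  have hpath : Continuous fun e : ℝ => (((prPsi Z q₁).1, (prPsi Z q₁).2 + (-sin a * e, 0)) : (ℝ × ℝ) × (ℝ × ℝ)) := by
    fun_prop
  have hev : ∀ᶠ e in nhds (0 : ℝ), (((prPsi Z q₁).1, (prPsi Z q₁).2 + (-sin a * e, 0)) : (ℝ × ℝ) × (ℝ × ℝ)) ∈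
      prPsi Z '' (N ∩ {q | |A q - a| < π / 2}) := by
    apply hpath.continuousAt.eventually
    have e0 : (((prPsi Z q₁).1, (prPsi Z q₁).2 + (-sin a * 0, 0)) : (ℝ × ℝ) × (ℝ × ℝ)) = prPsi Z q₁ := by
      ext <;> simp
    simp only [e0]
    exact himg
  have hev' := hev.filter_mono (nhdsWithin_le_nhds (s := Set.Ioi 0))
  obtain ⟨e, he1, he2⟩ := (hev'.and self_mem_nhdsWithin).exists
  obtain ⟨q₂, ⟨hq₂N, hq₂A⟩, hq₂⟩ := he1
  refine ⟨q₂, hq₂N, ?_⟩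
  have he0 : 0 < e := he2
  obtain ⟨r₁, hr₁, e₁⟩ := hDA q₁
  obtain ⟨r₂, hr₂, e₂⟩ := hDA q₂
  have h1 : (prD Z q₂).1 = (prD Z q₁).1 + -sin a * e := by
    rw [t0p_prD_eq, t0p_prD_eq, hq₂]
    simp only [Prod.fst_sub, Prod.fst_add]
    ring
  rw [e₁, e₂, hq₁, hcosa] at h1
  simp only [mul_zero, zero_add] at h1
  set t := A q₂ - a with ht
  have hA2 : A q₂ = a + t := by rw [ht]; ring
  rw [hA2, cos_add, hcosa, zero_mul, zero_sub] at h1
  have h2 : r₂ * sin t = e := by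
    have : sin a * (r₂ * sin t) = sin a * e := by linarith
    exact mul_left_cancel₀ hsina this
  have h3 : 0 < sin t := by
    by_contra hc
    push Not at hc
    nlinarith
  have h4 : |t| < π / 2 := hq₂A
  rw [abs_lt] at h4
  have h5 : 0 < t := by
    by_contra hc
    push Not at hc
    have := sin_nonpos_of_nonpos_of_neg_pi_le hc (by linarith [h4.1])
    linarith
  linarith

theorem t0p_T_iter (hs : IsSupport h) (T : ℝ × ℝ → ℝ × ℝ) (hT : ∀ w ∈ wedge, T w = lineMap h w) (j : ℕ) (w : ℝ × ℝ)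
    (hw : w ∈ wedge) : T^[j] w = (lineMap h)^[j] w ∧ (lineMap h)^[j] w ∈ wedge := by
  induction j with
  | zero => exact ⟨rfl, hw⟩
  | succ j ih =>
    rw [Function.iterate_succ_apply', Function.iterate_succ_apply', ih.1, hT _ ih.2]
    exact ⟨rfl, t0_lineMap_mem hs ih.2⟩

theorem t0p_T_iter_off (T : ℝ × ℝ → ℝ × ℝ) (hT : ∀ w, w ∉ wedge → T w = w) (j : ℕ) (w : ℝ × ℝ)
    (hw : w ∉ wedge) : T^[j] w = w := by
  induction j with
  | zero => rfl
  | succ j ih => rw [Function.iterate_succ_apply', ih, hT _ hw]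

/-- a state whose `j`-th image lies on the leaf `u` lies on the leaf `u`. -/
theorem t0p_pull (F : LiftedFol h Z G) (hs : IsSupport h) (T : ℝ × ℝ → ℝ × ℝ) (hT : ∀ w ∈ wedge, T w = lineMap h w)
    (hT' : ∀ w, w ∉ wedge → T w = w) (j : ℕ) (w : ℝ × ℝ) (αj u : ℝ) (e : T^[j] w = Z (αj, u)) :
    ∃ α, w = Z (α, u) ∧ foIt G u j α = αj := by
  have hw : w ∈ wedge := by
    by_contra hw
    rw [t0p_T_iter_off T hT' j w hw] at e
    exact hw (e ▸ F.mem _)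
  obtain ⟨α, hα⟩ := t0p_it_surj F u j αj
  refine ⟨α, ?_, hα⟩
  have h1 : (lineMap h)^[j] w = (lineMap h)^[j] (Z (α, u)) := by
    rw [t0p_lineMap_iter F, hα, ← e, (t0p_T_iter hs T hT j w hw).1]
  have hinj : Set.InjOn (lineMap h)^[j] wedge :=
    (t0_lineMap_injOn hs).iterate (fun w hw => t0_lineMap_mem hs hw) j
  exact hinj hw (F.mem _) h1

theorem t0p_TT_iter (F : LiftedFol h Z G) (hs : IsSupport h) (T : ℝ × ℝ → ℝ × ℝ) (hT : ∀ w ∈ wedge, T w = lineMap h w)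
    (j : ℕ) (q : PrSp) : (Prod.map T T)^[j] (prPsi Z q) = prPsi Z ((prK G)^[j] q) := by
  induction j with
  | zero => rfl
  | succ j ih =>
    rw [Function.iterate_succ_apply', Function.iterate_succ_apply', ih, t0p_psi_K F]
    simp only [Prod.map, prPsi]
    rw [hT _ (F.mem _), hT _ (F.mem _)]

theorem t0p_TT_iter' (T : ℝ × ℝ → ℝ × ℝ) (j : ℕ) (x : (ℝ × ℝ) × (ℝ × ℝ)) :
    (Prod.map T T)^[j] x = (T^[j] x.1, T^[j] x.2) := by
  induction j generalizing x with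
  | zero => rfl
  | succ j ih => rw [Function.iterate_succ_apply, ih]; rfl

/-- recurrence of pairs on a plateau. -/
theorem t0p_pair_recurrence (F : LiftedFol h Z G) (hs : IsSupport h) {ρ : ℝ → ℝ} (hρ : IsRot G ρ) (u₁ u₂ : ℝ)
    (hconst : ∀ u ∈ Set.Ioo u₁ u₂, ∀ u' ∈ Set.Ioo u₁ u₂, ρ u = ρ u')
    (V : Set PrSp) (hV : IsOpen V) (hne : V.Nonempty) (hVu : ∀ q ∈ V, u₁ < q.1.2 ∧ prU q < u₂) :
    ∃ q ∈ V, ∃ (j : ℕ) (n : ℤ), 1 ≤ j ∧ prS n ((prK G)^[j] q) ∈ V := by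
  have hπ := pi_pos
  have h2π : (0 : ℝ) < 2 * π := by positivity
  obtain ⟨μ, T, hσ, hTμ, hT, hT', hshift, hpos, hfin⟩ := t0p_measure hs
  obtain ⟨q₂, hq₂⟩ := hne
  have hemb := t0p_psi_emb F
  set B₀ : Set PrSp := V ∩ Metric.ball q₂ 1 ∩ prPsi Z ⁻¹' Metric.ball (prPsi Z q₂) 1 with hB₀
  have hB₀o : IsOpen B₀ := (hV.inter Metric.isOpen_ball).inter (Metric.isOpen_ball.preimage hemb.continuous)
  have hq₂B₀ : q₂ ∈ B₀ := ⟨⟨hq₂, Metric.mem_ball_self one_pos⟩, Metric.mem_ball_self one_pos⟩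
  set B : Set ((ℝ × ℝ) × (ℝ × ℝ)) := prPsi Z '' B₀ with hB
  have hBo : IsOpen B := hemb.isOpenMap _ hB₀o
  obtain ⟨C, hC⟩ := t0p_Z_bound F (Set.Icc u₁ u₂) isCompact_Icc
  set M₀ : ℝ := |q₂.2.1 - q₂.1.1| + 2 + 4 * π + 2 * C with hM₀
  set S₁ : Set (ℝ × ℝ) := Set.Icc 0 (2 * π) ×ˢ Set.Icc 0 (4 * π) with hS₁
  set S₂ : Set (ℝ × ℝ) := Set.Icc (-M₀) (2 * π + M₀) ×ˢ Set.Icc (-M₀) (4 * π + M₀) with hS₂
  set v : (ℝ × ℝ) × (ℝ × ℝ) := ((2 * π, 2 * π), (2 * π, 2 * π)) with hv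
  have hnv : ∀ n : ℤ, n • v = (((n * (2 * π), n * (2 * π)), (n * (2 * π), n * (2 * π))) : (ℝ × ℝ) × (ℝ × ℝ)) := by
    intro n
    simp [hv]
  have hTT : MeasurePreserving (Prod.map T T) (μ.prod μ) (μ.prod μ) := hTμ.prod hTμ
  have hvv : MeasurePreserving (fun x : (ℝ × ℝ) × (ℝ × ℝ) => x + v) (μ.prod μ) (μ.prod μ) := hshift.prod hshift
  have hTs : ∀ w, T (w + ((2 * π, 2 * π) : ℝ × ℝ)) = T w + ((2 * π, 2 * π) : ℝ × ℝ) := by
    intro w
    by_cases hw : w ∈ wedge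
    · rw [hT _ (t0_wedge_shift hw _), hT _ hw, t0_lineMap_shift hs hw]
    · have hw' : w + ((2 * π, 2 * π) : ℝ × ℝ) ∉ wedge := by
        intro hc
        apply hw
        have := t0_wedge_shift hc (-(2 * π))
        have e0 : w + ((2 * π, 2 * π) : ℝ × ℝ) + (-(2 * π), -(2 * π)) = w := by ext <;> simp
        rwa [e0] at this
      rw [hT' _ hw', hT' _ hw]
  have hcomm : ∀ x, Prod.map T T (x + v) = Prod.map T T x + v := by
    intro x
    simp only [Prod.map, hv, hTs, Prod.mk_add_mk]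
  have hB0 : (μ.prod μ) B ≠ 0 := by
    have hmem : prPsi Z q₂ ∈ B := ⟨q₂, hq₂B₀, rfl⟩
    obtain ⟨O₁, O₂, hO₁, hO₂, h1, h2, hsub⟩ := isOpen_prod_iff.1 hBo _ _ hmem
    have a1 : μ (O₁ ∩ wedge) ≠ 0 := hpos _ (hO₁.inter t0_isOpen_wedge) Set.inter_subset_right ⟨_, h1, F.mem _⟩
    have a2 : μ (O₂ ∩ wedge) ≠ 0 := hpos _ (hO₂.inter t0_isOpen_wedge) Set.inter_subset_right ⟨_, h2, F.mem _⟩
    have a3 : (μ.prod μ) ((O₁ ∩ wedge) ×ˢ (O₂ ∩ wedge)) ≠ 0 := by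
      rw [Measure.prod_prod]
      exact mul_ne_zero a1 a2
    intro h0
    apply a3
    exact measure_mono_null (fun x hx => hsub ⟨hx.1.1, hx.2.1⟩) h0
  have hFfin : (μ.prod μ) (S₁ ×ˢ S₂) ≠ ⊤ := by
    rw [Measure.prod_prod]
    exact ENNReal.mul_ne_top (hfin _ ((Metric.isBounded_Icc _ _).prod (Metric.isBounded_Icc _ _)))
      (hfin _ ((Metric.isBounded_Icc _ _).prod (Metric.isBounded_Icc _ _)))
  have hFm : MeasurableSet (S₁ ×ˢ S₂) :=
    ((measurableSet_Icc.prod measurableSet_Icc).prod (measurableSet_Icc.prod measurableSet_Icc))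
  have hself : ∀ (n : ℤ) (x : (ℝ × ℝ) × (ℝ × ℝ)), n ≠ 0 → x ∈ B → x + n • v ∉ B := by
    rintro n x hn ⟨q, hq, rfl⟩ ⟨q', hq', e⟩
    have d1 : dist (prPsi Z q) (prPsi Z q₂) < 1 := hq.2
    have d2 : dist (prPsi Z q') (prPsi Z q₂) < 1 := hq'.2
    have d3 : dist (prPsi Z q') (prPsi Z q) < 2 := by
      have := dist_triangle_right (prPsi Z q') (prPsi Z q) (prPsi Z q₂)
      linarith
    rw [e, hnv, dist_eq_norm, add_sub_cancel_left] at d3
    have d4 : |(n : ℝ) * (2 * π)| ≤ ‖(((n * (2 * π), n * (2 * π)), (n * (2 * π), n * (2 * π))) : (ℝ × ℝ) × (ℝ × ℝ))‖ := by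
      simp [Prod.norm_def]
    have d5 : (1 : ℝ) ≤ |(n : ℝ)| := by
      have : (1 : ℤ) ≤ |n| := Int.one_le_abs hn
      exact_mod_cast this
    rw [abs_mul, abs_of_pos h2π] at d4
    have := pi_gt_three
    nlinarith
  have hcov : ∀ (j : ℕ) (x : (ℝ × ℝ) × (ℝ × ℝ)), (Prod.map T T)^[j] x ∈ B → ∃ n : ℤ, x + n • v ∈ S₁ ×ˢ S₂ := by
    rintro j x ⟨q, hq, e⟩
    rw [t0p_TT_iter'] at e
    have e1 : T^[j] x.1 = Z (q.1.1, q.1.2) := (congrArg Prod.fst e).symm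
    have e2 : T^[j] x.2 = Z (q.2.1, prU q) := (congrArg Prod.snd e).symm
    obtain ⟨α, hxα, hα⟩ := t0p_pull F hs T hT hT' j x.1 _ _ e1
    obtain ⟨β, hxβ, hβ⟩ := t0p_pull F hs T hT hT' j x.2 _ _ e2
    obtain ⟨hu1, hu2⟩ := hVu q hq.1.1
    have huu : q.1.2 < prU q := by
      simp only [prU]
      linarith [exp_pos q.2.2]
    have hI1 : q.1.2 ∈ Set.Ioo u₁ u₂ := ⟨hu1, huu.trans hu2⟩
    have hI2 : prU q ∈ Set.Ioo u₁ u₂ := ⟨hu1.trans huu, hu2⟩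
    have hrel := t0p_rel_bound hρ _ _ (hconst _ hI1 _ hI2) j α β
    rw [hα, hβ] at hrel
    have hball : dist q q₂ < 1 := hq.1.2
    have hb1 : |q.1.1 - q₂.1.1| < 1 := by
      have : dist q.1.1 q₂.1.1 ≤ dist q q₂ := by
        rw [Prod.dist_eq, Prod.dist_eq]
        exact (le_max_left _ _).trans (le_max_left _ _)
      rw [Real.dist_eq] at this
      linarith
    have hb2 : |q.2.1 - q₂.2.1| < 1 := by
      have : dist q.2.1 q₂.2.1 ≤ dist q q₂ := by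
        rw [Prod.dist_eq, Prod.dist_eq (x := q.2)]
        exact (le_max_left _ _).trans (le_max_right _ _)
      rw [Real.dist_eq] at this
      linarith
    have hZ1 := (hC _ ⟨hI1.1.le, hI1.2.le⟩ α).1
    have hZ2 := (hC _ ⟨hI2.1.le, hI2.2.le⟩ β).1
    have hw1 : x.1 ∈ wedge := hxα ▸ F.mem _
    have hw2 : x.2 ∈ wedge := hxβ ▸ F.mem _
    have hdiff : |x.2.1 - x.1.1| ≤ M₀ := by
      rw [hxα, hxβ]
      rw [abs_le] at hrel hZ1 hZ2 ⊢
      rw [abs_lt] at hb1 hb2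
      have a0 := abs_le.1 (le_refl |q₂.2.1 - q₂.1.1|)
      simp only [hM₀]
      constructor <;> linarith [hrel.1, hrel.2, hZ1.1, hZ1.2, hZ2.1, hZ2.2, hb1.1, hb1.2, hb2.1, hb2.2, a0.1, a0.2]
    refine ⟨-⌊x.1.1 / (2 * π)⌋, ?_⟩
    rw [hnv]
    set n : ℝ := ((-⌊x.1.1 / (2 * π)⌋ : ℤ) : ℝ) with hn
    have hfl1 : 0 ≤ x.1.1 + n * (2 * π) := by
      have := Int.floor_le (x.1.1 / (2 * π))
      rw [le_div_iff₀ h2π] at this
      simp only [hn]
      push_cast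
      linarith
    have hfl2 : x.1.1 + n * (2 * π) < 2 * π := by
      have := Int.lt_floor_add_one (x.1.1 / (2 * π))
      rw [div_lt_iff₀ h2π] at this
      simp only [hn]
      push_cast
      linarith
    rw [abs_le] at hdiff
    obtain ⟨w11, w12⟩ := hw1
    obtain ⟨w21, w22⟩ := hw2
    refine ⟨⟨⟨?_, ?_⟩, ⟨?_, ?_⟩⟩, ⟨⟨?_, ?_⟩, ⟨?_, ?_⟩⟩⟩ <;>
      simp only [Prod.fst_add, Prod.snd_add] <;> linarith [hdiff.1, hdiff.2]
  obtain ⟨j, n, x, hj, ⟨q, hq, rfl⟩, hrec⟩ := t0p_nowander (μ.prod μ) (Prod.map T T) hTT v hvv hcomm B (S₁ ×ˢ S₂)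
    hBo.measurableSet hFm hB0 hFfin hcov hself
  refine ⟨q, hq.1.1, j, n, hj, ?_⟩
  rw [t0p_TT_iter F hs T hT, hnv, ← t0p_psi_S F] at hrec
  obtain ⟨q', hq', e⟩ := hrec
  rw [← hemb.injective e]
  exact hq'.1.1

/-- **no plateau.** -/
theorem t0p_no_plateau (F : LiftedFol h Z G) (hs : IsSupport h) {ρ : ℝ → ℝ} (hρ : IsRot G ρ) (u₁ u₂ : ℝ) (h12 : u₁ < u₂) :
    ∃ u ∈ Set.Ioo u₁ u₂, ∃ u' ∈ Set.Ioo u₁ u₂, ρ u ≠ ρ u' := by
  by_contra hcon
  push Not at hcon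
  obtain ⟨A, hA, hDA, hAS, hbar⟩ := t0p_pair_arg F hs
  set u := u₁ + (u₂ - u₁) / 3 with hu
  set v := log ((u₂ - u₁) / 3) with hv
  have hexp : exp v = (u₂ - u₁) / 3 := exp_log (by linarith)
  obtain ⟨β, hβ⟩ := t0p_exists_barrier_pair F u v
  set q₁ : PrSp := ((0, u), (β, v)) with hq₁
  obtain ⟨r, hr, e⟩ := hDA q₁
  have hcos : cos (A q₁) = 0 := by
    rw [e] at hβ
    simp only at hβ
    rcases mul_eq_zero.1 hβ with h0 | h0
    · exact absurd h0 hr.ne'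
    · exact h0
  obtain ⟨m, hm⟩ := Real.cos_eq_zero_iff.1 hcos
  have hAq₁ : A q₁ = π / 2 + m * π := by rw [hm]; ring
  have hK := hbar m q₁ hAq₁.le
  set N : Set PrSp := {q | A (prK G q) < π / 2 + m * π ∧ u₁ < q.1.2 ∧ prU q < u₂} with hN
  have hNo : IsOpen N := by
    have c1 : Continuous fun q : PrSp => A (prK G q) := hA.comp (t0p_K_cont F)
    have c2 : Continuous fun q : PrSp => q.1.2 := by fun_prop
    exact (isOpen_lt c1 continuous_const).inter ((isOpen_lt continuous_const c2).inter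
      (isOpen_lt t0p_prU_cont continuous_const))
  have hq₁N : q₁ ∈ N := by
    refine ⟨hK, ?_, ?_⟩
    · simp only [hq₁, hu]; linarith
    · simp only [hq₁, prU, hexp, hu]; linarith
  obtain ⟨q₂, hq₂N, hq₂⟩ := t0p_perturb F A hA hDA m q₁ hAq₁ N (hNo.mem_nhds hq₁N)
  obtain ⟨q, hqV, j, n, hj, hrec⟩ := t0p_pair_recurrence F hs hρ u₁ u₂ hcon ({q | π / 2 + m * π < A q} ∩ N)
    ((isOpen_lt continuous_const hA).inter hNo) ⟨q₂, hq₂, hq₂N⟩ (fun q hq => hq.2.2)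
  have h1 : π / 2 + m * π < A (prS n ((prK G)^[j] q)) := hrec.1
  rw [hAS] at h1
  have h2 := t0p_barrier_iter A (prK G) (π / 2 + m * π) (hbar m) q hqV.2.1 j hj
  linarith

end Claimed.Agent.R269
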