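/-
Row 269, front end T0' (S0511), LEAF  LF-T0p-Graph :  every leaf is a graph over the angle.        Sub-captain: helper113.
Uses T0p/Fol.lean, T0p/Plateau.lean (statements only).     (Replaces P2 geometry.tex l.238-369.)

(A) `t0p_periodic_dense`.   `ρ` from `t0p_rot_exists`.  `t0p_no_plateau` on `(u₁, u₂)`: `u, u'` with `ρ u ≠ ρ u'`.  Let `w₀ = min u u'`, `w₁ = max u u'`.  Choose `q ≥ 1`, `l : ℤ` with `l 2π / q` strictly between
    `ρ u` and `ρ u'` (`exists_rat_btwn` for `ρ / (2π)`; `q = den`, `l = num`).   Two symmetric cases; say `q ρ w₀ < l 2π < q ρ w₁`.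
    `c := sSup {w ∈ [w₀, w₁] | q ρ w < l 2π}`.
    * `c` is a limit of points `w` of this set; there `foIt G w q α < α + l 2π` (`t0p_rot_lt`), so `foIt G c q α ≤ α + l 2π` for all `α` (`t0p_it_cont`).   Hence `c ≠ w₁` (`t0p_rot_gt` at `w₁`).
    * for `w ∈ (c, w₁]`: `l 2π ≤ q ρ w`.  For every `ε > 0`, `t0p_no_plateau` on `(c, min (c + ε) w₁)` gives a `w` there with `q ρ w ≠ l 2π`, so `l 2π < q ρ w`, so `α + l 2π < foIt G w q α` (`t0p_rot_gt`);
      `ε → 0`: `α + l 2π ≤ foIt G c q α`.   Hence `c ≠ w₀`.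
(B) `t0p_periodic_graph`.   `P = {x : ℝ × ℝ | x.1 < x.2}` (convex, so preconnected).  `a j x := (Z (foIt G c j x.2, c)).1 - (Z (foIt G c j x.1, c)).1` (continuous).   `a (j + q) = a j` (`t0p_it_add`, periodicity, `t0p_Z_shift_int`).
    `W := {x ∈ P | ∀ j, 0 < a j x} = {x ∈ P | ∀ j < q, 0 < a j x}`: relatively open.
    Relatively closed: let `x ∈ P` with `0 ≤ a j x` for all `j`, and `a j x = 0` for some `j`; we may take `j ≥ 1` (add `q`).  The states `X = Z (foIt G c (j-1) x.1, c)`, `Y = Z (foIt G c (j-1) x.2, c)` are distinct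
    (`emb.injective`, `t0p_it_mono`), `Y.2 - X.2 = a j x = 0` (`t0p_Z_fst_G`), so by `t0p_twist`  `a (j-1) x * a (j+1) x < 0` (`(lineMap h Y).2 = (Z (foIt (j+1) ..)).1`): contradiction with `≥ 0`.
    Nonempty: `C` from `t0p_Z_bound` for `S = {c}`, `k : ℕ` with `2 C + 1 ≤ k 2π`, `x = (0, k 2π)`: `foIt j (k 2π) = foIt j 0 + k 2π` (`t0p_it_shift_int`), so `a j x ≥ k 2π - 2 C > 0`.
    `IsPreconnected.subset_of_closure_inter_subset` / `isPreconnected_iff_subset_of_disjoint`, or IVT along the segment: `W = P`;  `j = 0` is the claim.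
(C) `t0p_graph_fst`.   Monotone: for `α < β`, `(Z (α, c)).1 < (Z (β, c)).1` on a dense set of `c` ((A), (B)), `Z` continuous: `≤` for all `u`.   So `α ↦ (Z (α, u)).2 = (Z (G (α, u), u)).1` is monotone as well.
    Strict: if `α < β`, `(Z (α, u)).1 = (Z (β, u)).1`, take `α = G (α', u)`, `β = G (β', u)` (`G_surj`; `α' < β'` by `G_mono`): `(Z (α', u)).2 = (Z (β', u)).2`, and `t0p_twist`:
    `((Z (β', u)).1 - (Z (α', u)).1) * ((Z (β, u)).2 - (Z (α, u)).2) < 0`, but both factors are `≥ 0`.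
-/
import Claimed.Agent.R269.T0p.Plateau

set_option autoImplicit false

namespace Claimed.Agent.R269

open Real

variable {h : ℝ → ℝ} {Z : ℝ × ℝ → ℝ × ℝ} {G : ℝ × ℝ → ℝ}

/-- reversing the order of the leaves. -/
theorem t0p_fol_neg (F : LiftedFol h Z G) : LiftedFol h (fun x => Z (x.1, -x.2)) (fun x => G (x.1, -x.2)) where
  emb := F.emb.comp ((Homeomorph.refl ℝ).prodCongr (Homeomorph.neg ℝ)).isOpenEmbedding
  mem x := F.mem _
  Z_shift α u := F.Z_shift α (-u)
  G_cont := F.G_cont.comp (continuous_fst.prodMk continuous_snd.neg)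
  G_shift α u := F.G_shift α (-u)
  G_mono u := F.G_mono (-u)
  G_surj u := F.G_surj (-u)
  conj α u := F.conj α (-u)
  strip := by
    obtain ⟨η, hη, H⟩ := F.strip
    refine ⟨η, hη, fun w hw hlt => ?_⟩
    obtain ⟨⟨α, u⟩, e⟩ := H w hw hlt
    exact ⟨(α, -u), by simpa using e⟩

theorem t0p_periodic_core (F : LiftedFol h Z G) (hs : IsSupport h) {ρ : ℝ → ℝ} (hρ : IsRot G ρ) (w₀ w₁ : ℝ) (hw : w₀ < w₁)
    (q : ℕ) (l : ℤ) (hq : 1 ≤ q) (hlo : q * ρ w₀ < l * (2 * π)) (hhi : l * (2 * π) < q * ρ w₁) :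
    ∃ c ∈ Set.Ioo w₀ w₁, ∀ α, foIt G c q α = α + l * (2 * π) := by
  set S : Set ℝ := {w | w ∈ Set.Icc w₀ w₁ ∧ q * ρ w < l * (2 * π)} with hS
  have hw₀S : w₀ ∈ S := ⟨⟨le_rfl, hw.le⟩, hlo⟩
  have hbdd : BddAbove S := ⟨w₁, fun w hw => hw.1.2⟩
  set c := sSup S with hc
  have hcw₁ : c ≤ w₁ := csSup_le ⟨w₀, hw₀S⟩ fun w hw => hw.1.2
  have hw₀c : w₀ ≤ c := le_csSup hbdd hw₀S
  have hcont : ∀ α, Continuous fun w => foIt G w q α := fun α =>
    (t0p_it_cont F q).comp (continuous_const.prodMk continuous_id)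
  have ha : ∀ α, foIt G c q α ≤ α + l * (2 * π) := by
    intro α
    have hcl : IsClosed {w | foIt G w q α ≤ α + l * (2 * π)} := isClosed_le (hcont α) continuous_const
    have hsub : S ⊆ {w | foIt G w q α ≤ α + l * (2 * π)} := fun w hw => (t0p_rot_lt F hρ w q l hw.2 α).le
    exact closure_minimal hsub hcl (csSup_mem_closure ⟨w₀, hw₀S⟩ hbdd)
  have hcw₁' : c < w₁ := by
    refine lt_of_le_of_ne hcw₁ fun e => ?_
    have h1 := ha 0
    rw [e] at h1
    exact absurd h1 (not_le.2 (t0p_rot_gt F hρ w₁ q l hhi 0))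
  have hb : ∀ α, α + l * (2 * π) ≤ foIt G c q α := by
    intro α
    have hcl : IsClosed {w | α + l * (2 * π) ≤ foIt G w q α} := isClosed_le continuous_const (hcont α)
    have hmem : c ∈ closure {w | α + l * (2 * π) ≤ foIt G w q α} := by
      rw [Metric.mem_closure_iff]
      intro ε hε
      have hlt : c < min (c + ε) w₁ := lt_min (by linarith) hcw₁'
      obtain ⟨w, hw1, w', hw1', hne⟩ := t0p_no_plateau F hs hρ c (min (c + ε) w₁) hlt
      have hnotS : ∀ v ∈ Set.Ioo c (min (c + ε) w₁), (l : ℝ) * (2 * π) ≤ q * ρ v := by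
        intro v hv
        by_contra hcon
        push Not at hcon
        have : v ∈ S := ⟨⟨by linarith [hv.1], hv.2.le.trans (min_le_right _ _)⟩, hcon⟩
        exact absurd (le_csSup hbdd this) (not_le.2 hv.1)
      have hq0 : (0 : ℝ) < q := by exact_mod_cast hq
      have key : ∀ v ∈ Set.Ioo c (min (c + ε) w₁), (l : ℝ) * (2 * π) < q * ρ v →
          ∃ b ∈ {w | α + l * (2 * π) ≤ foIt G w q α}, dist c b < ε := by
        intro v hv hlt'
        refine ⟨v, (t0p_rot_gt F hρ v q l hlt' α).le, ?_⟩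
        rw [Real.dist_eq, abs_lt]
        have := hv.2.trans_le (min_le_left _ _)
        constructor <;> linarith [hv.1]
      rcases (hnotS w hw1).lt_or_eq with h1 | h1
      · exact key w hw1 h1
      · rcases (hnotS w' hw1').lt_or_eq with h2 | h2
        · exact key w' hw1' h2
        · exfalso
          apply hne
          have : (q : ℝ) * ρ w = q * ρ w' := by rw [← h1, ← h2]
          exact mul_left_cancel₀ hq0.ne' this
    rw [hcl.closure_eq] at hmem
    exact hmem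
  refine ⟨c, ⟨lt_of_le_of_ne hw₀c fun e => ?_, hcw₁'⟩, fun α => le_antisymm (ha α) (hb α)⟩
  have h1 := hb 0
  rw [← e] at h1
  exact absurd h1 (not_le.2 (t0p_rot_lt F hρ w₀ q l hlo 0))

theorem t0p_exists_rat (a b : ℝ) (hab : a < b) :
    ∃ (q : ℕ) (l : ℤ), 1 ≤ q ∧ q * a < l * (2 * π) ∧ l * (2 * π) < q * b := by
  have hπ : (0 : ℝ) < 2 * π := by positivity
  obtain ⟨r, h1, h2⟩ := exists_rat_btwn (div_lt_div_of_pos_right hab hπ)
  have hden : (0 : ℝ) < r.den := by exact_mod_cast r.den_pos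
  have hr : (r : ℝ) = r.num / r.den := by
    have := Rat.num_div_den r
    conv_lhs => rw [← this]
    push_cast
    rfl
  refine ⟨r.den, r.num, r.den_pos, ?_, ?_⟩
  · rw [hr, div_lt_div_iff₀ hπ hden] at h1
    linarith
  · rw [hr, div_lt_div_iff₀ hden hπ] at h2
    linarith

/-- completely periodic leaves are dense. -/
theorem t0p_periodic_dense (F : LiftedFol h Z G) (hs : IsSupport h) (u₁ u₂ : ℝ) (h12 : u₁ < u₂) :
    ∃ c ∈ Set.Ioo u₁ u₂, ∃ (q : ℕ) (l : ℤ), 1 ≤ q ∧ ∀ α, foIt G c q α = α + l * (2 * π) := by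
  obtain ⟨ρ, hρ⟩ := t0p_rot_exists F
  -- the two cases for ordered leaves
  have inc : ∀ w₀ w₁, u₁ < w₀ → w₀ < w₁ → w₁ < u₂ → ρ w₀ < ρ w₁ →
      ∃ c ∈ Set.Ioo u₁ u₂, ∃ (q : ℕ) (l : ℤ), 1 ≤ q ∧ ∀ α, foIt G c q α = α + l * (2 * π) := by
    intro w₀ w₁ h0 h01 h1 hlt
    obtain ⟨q, l, hq, a1, a2⟩ := t0p_exists_rat _ _ hlt
    obtain ⟨c, hc, H⟩ := t0p_periodic_core F hs hρ w₀ w₁ h01 q l hq a1 a2
    exact ⟨c, ⟨h0.trans hc.1, hc.2.trans h1⟩, q, l, hq, H⟩
  have dec : ∀ w₀ w₁, u₁ < w₀ → w₀ < w₁ → w₁ < u₂ → ρ w₁ < ρ w₀ →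
      ∃ c ∈ Set.Ioo u₁ u₂, ∃ (q : ℕ) (l : ℤ), 1 ≤ q ∧ ∀ α, foIt G c q α = α + l * (2 * π) := by
    intro w₀ w₁ h0 h01 h1 hlt
    obtain ⟨q, l, hq, a1, a2⟩ := t0p_exists_rat _ _ hlt
    have hρ' : IsRot (fun x : ℝ × ℝ => G (x.1, -x.2)) (fun u => ρ (-u)) := fun u j α => hρ (-u) j α
    obtain ⟨c, hc, H⟩ := t0p_periodic_core (t0p_fol_neg F) hs hρ' (-w₁) (-w₀) (by linarith) q l hq
      (by simpa using a1) (by simpa using a2)
    exact ⟨-c, ⟨by linarith [hc.2], by linarith [hc.1]⟩, q, l, hq, H⟩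
  obtain ⟨u, hu, u', hu', hne⟩ := t0p_no_plateau F hs hρ u₁ u₂ h12
  have huu : u ≠ u' := fun e => hne (by rw [e])
  rcases lt_or_gt_of_ne huu with h1 | h1 <;> rcases lt_or_gt_of_ne hne with h2 | h2
  · exact inc u u' hu.1 h1 hu'.2 h2
  · exact dec u u' hu.1 h1 hu'.2 h2
  · exact dec u' u hu'.1 h1 hu.2 h2
  · exact inc u' u hu'.1 h1 hu.2 h2

/-- difference of the incoming angles of the `j`-th iterates of two points of the leaf `c`. -/
noncomputable def t0pA (Z : ℝ × ℝ → ℝ × ℝ) (G : ℝ × ℝ → ℝ) (c : ℝ) (j : ℕ) (x : ℝ × ℝ) : ℝ :=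
  (Z (foIt G c j x.2, c)).1 - (Z (foIt G c j x.1, c)).1

theorem t0pA_cont (F : LiftedFol h Z G) (c : ℝ) (j : ℕ) : Continuous (t0pA Z G c j) := by
  have h1 : ∀ f : ℝ × ℝ → ℝ, Continuous f → Continuous fun x : ℝ × ℝ => (Z (foIt G c j (f x), c)).1 := fun f hf =>
    continuous_fst.comp (F.emb.continuous.comp
      (((t0p_it_cont F j).comp (hf.prodMk continuous_const)).prodMk continuous_const))
  exact (h1 _ continuous_snd).sub (h1 _ continuous_fst)

theorem t0pA_add (F : LiftedFol h Z G) (c : ℝ) (q : ℕ) (l : ℤ) (hper : ∀ α, foIt G c q α = α + l * (2 * π)) (j : ℕ)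
    (x : ℝ × ℝ) : t0pA Z G c (j + q) x = t0pA Z G c j x := by
  unfold t0pA
  rw [t0p_it_add, t0p_it_add, hper, hper, t0p_it_shift_int F, t0p_it_shift_int F, t0p_Z_shift_int F, t0p_Z_shift_int F]
  simp

theorem t0pA_add_mul (F : LiftedFol h Z G) (c : ℝ) (q : ℕ) (l : ℤ) (hper : ∀ α, foIt G c q α = α + l * (2 * π)) (j n : ℕ)
    (x : ℝ × ℝ) : t0pA Z G c (j + n * q) x = t0pA Z G c j x := by
  induction n with
  | zero => simp
  | succ n ih =>
    have e : j + (n + 1) * q = (j + n * q) + q := by ring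
    rw [e, t0pA_add F c q l hper, ih]

/-- twist: no zero between two nonnegative neighbours. -/
theorem t0pA_twist (F : LiftedFol h Z G) (hs : IsSupport h) (c : ℝ) (i : ℕ) (x : ℝ × ℝ) (hx : x.1 < x.2)
    (h0 : t0pA Z G c (i + 1) x = 0) : t0pA Z G c i x * t0pA Z G c (i + 2) x < 0 := by
  have hne : ((foIt G c i x.1, c) : ℝ × ℝ) ≠ (foIt G c i x.2, c) := by
    intro e
    have := congrArg Prod.fst e
    exact hx.ne ((t0p_it_mono F c i).injective this)
  have e1 : (Z (foIt G c i x.1, c)).2 = (Z (foIt G c i x.2, c)).2 := by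
    unfold t0pA at h0
    rw [t0p_it_succ, t0p_it_succ, t0p_Z_fst_G F, t0p_Z_fst_G F] at h0
    linarith
  have := t0p_twist F hs _ _ hne e1
  have e2 : ∀ β, (lineMap h (Z (foIt G c i β, c))).2 = (Z (foIt G c (i + 2) β, c)).1 := by
    intro β
    rw [F.conj, ← t0p_Z_fst_G F, t0p_it_succ G c (i + 1), t0p_it_succ G c i]
  rw [e2, e2] at this
  exact this

/-- a completely periodic leaf is a graph. -/
theorem t0p_periodic_graph (F : LiftedFol h Z G) (hs : IsSupport h) (c : ℝ) (q : ℕ) (l : ℤ) (hq : 1 ≤ q)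
    (hper : ∀ α, foIt G c q α = α + l * (2 * π)) : StrictMono fun α => (Z (α, c)).1 := by
  have hπ := pi_pos
  set P : Set (ℝ × ℝ) := {x | x.1 < x.2} with hP
  have hPc : IsPreconnected P := by
    apply Convex.isPreconnected
    intro x hx y hy a b ha hb hab
    simp only [hP, Set.mem_ofPred_eq, Prod.fst_add, Prod.snd_add, Prod.smul_fst, Prod.smul_snd, smul_eq_mul] at hx hy ⊢
    rcases ha.lt_or_eq with ha' | ha'
    · nlinarith
    · have : b = 1 := by linarith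
      rw [← ha', this]
      linarith
  set U : Set (ℝ × ℝ) := ⋂ j ∈ Finset.range q, {x | 0 < t0pA Z G c j x} with hU
  have hUo : IsOpen U := isOpen_biInter_finset fun j _ => isOpen_lt continuous_const (t0pA_cont F c j)
  have hUmem : ∀ x, x ∈ U ↔ ∀ j < q, 0 < t0pA Z G c j x := by
    intro x
    simp [hU]
  have hne : (P ∩ U).Nonempty := by
    refine ⟨(0, 2 * π), by simp only [hP, Set.mem_ofPred_eq]; linarith, (hUmem _).2 fun j _ => ?_⟩
    unfold t0pA
    have e : (2 * π : ℝ) = 0 + ((1 : ℤ) : ℝ) * (2 * π) := by simp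
    simp only
    rw [e, t0p_it_shift_int F, t0p_Z_shift_int F]
    simp
    linarith
  have hcl : closure U ∩ P ⊆ U := by
    rintro x ⟨hxU, hxP⟩
    have h0 : ∀ j < q, 0 ≤ t0pA Z G c j x := by
      intro j hj
      have hcl' : IsClosed {y | 0 ≤ t0pA Z G c j y} := isClosed_le continuous_const (t0pA_cont F c j)
      exact closure_minimal (fun y hy => ((hUmem y).1 hy j hj).le) hcl' hxU
    have h0' : ∀ j, 0 ≤ t0pA Z G c j x := by
      intro j
      have e : j = j % q + (j / q) * q := by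
        have := Nat.mod_add_div j q
        rw [mul_comm] at this
        exact this.symm
      rw [e, t0pA_add_mul F c q l hper]
      exact h0 _ (Nat.mod_lt _ hq)
    rw [hUmem]
    intro j hj
    refine lt_of_le_of_ne (h0 j hj) fun e => ?_
    -- `j + q = i + 1`
    obtain ⟨i, hi⟩ : ∃ i, j + q = i + 1 := ⟨j + q - 1, by omega⟩
    have e1 : t0pA Z G c (i + 1) x = 0 := by rw [← hi, t0pA_add F c q l hper, ← e]
    have := t0pA_twist F hs c i x hxP e1
    nlinarith [h0' i, h0' (i + 2)]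
  have hsub : P ⊆ U := hPc.subset_of_closure_inter_subset hUo hne hcl
  intro α β hαβ
  have := (hUmem (α, β)).1 (hsub hαβ) 0 hq
  unfold t0pA at this
  simp only [t0p_it_zero] at this
  simp only
  linarith

theorem t0p_graph_mono (F : LiftedFol h Z G) (hs : IsSupport h) (u : ℝ) : Monotone fun α => (Z (α, u)).1 := by
  intro α β hαβ
  simp only
  have hc : ∀ a, Continuous fun w => (Z (a, w)).1 := fun a =>
    continuous_fst.comp (F.emb.continuous.comp (continuous_const.prodMk continuous_id))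
  have hcl : IsClosed {w | (Z (α, w)).1 ≤ (Z (β, w)).1} := isClosed_le (hc α) (hc β)
  have hmem : u ∈ closure {w | (Z (α, w)).1 ≤ (Z (β, w)).1} := by
    rw [Metric.mem_closure_iff]
    intro ε hε
    obtain ⟨c, hc, q, l, hq, hper⟩ := t0p_periodic_dense F hs u (u + ε) (by linarith)
    refine ⟨c, (t0p_periodic_graph F hs c q l hq hper).monotone hαβ, ?_⟩
    rw [Real.dist_eq, abs_lt]
    constructor <;> linarith [hc.1, hc.2]
  rw [hcl.closure_eq] at hmem
  exact hmem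

/-- **every leaf is a graph** (incoming angle). -/
theorem t0p_graph_fst (F : LiftedFol h Z G) (hs : IsSupport h) (u : ℝ) : StrictMono fun α => (Z (α, u)).1 := by
  intro α β hαβ
  refine lt_of_le_of_ne (t0p_graph_mono F hs u hαβ.le) fun e => ?_
  simp only at e
  obtain ⟨α', rfl⟩ := F.G_surj u α
  obtain ⟨β', rfl⟩ := F.G_surj u β
  simp only at e hαβ
  have hlt : α' < β' := (F.G_mono u).lt_iff_lt.1 hαβ
  rw [t0p_Z_fst_G F, t0p_Z_fst_G F] at e
  have hne : ((α', u) : ℝ × ℝ) ≠ (β', u) := fun e' => hlt.ne (congrArg Prod.fst e')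
  have h1 := t0p_twist F hs _ _ hne e
  rw [F.conj, F.conj, ← t0p_Z_fst_G F, ← t0p_Z_fst_G F (G (α', u))] at h1
  have h2 : (Z (α', u)).1 ≤ (Z (β', u)).1 := t0p_graph_mono F hs u hlt.le
  have h3 : (Z (G (G (α', u), u), u)).1 ≤ (Z (G (G (β', u), u), u)).1 :=
    t0p_graph_mono F hs u ((F.G_mono u).monotone ((F.G_mono u).monotone hlt.le))
  nlinarith

/-- **every leaf is a graph** (outgoing angle). -/
theorem t0p_graph_snd (F : LiftedFol h Z G) (hs : IsSupport h) (u : ℝ) : StrictMono fun α => (Z (α, u)).2 := by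
  intro α β hαβ
  simp only
  rw [← t0p_Z_fst_G F, ← t0p_Z_fst_G F]
  exact t0p_graph_fst F hs u (F.G_mono u hαβ)

end Claimed.Agent.R269
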