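/-
Row 269, front end T0' (S0511), LEAF  LF-T0p-Collar :  leaves are graphs  ⟹  `IsPhaseCollar`.        Sub-captain: helper113.
Uses T0p/Graph.lean, T0p/Fol.lean (statements), T0/Model.lean, T0/Next.lean (sorry-free).     (Replaces P2 geometry.tex l.371-429.)

`d u θ` ("gap") : the state of the leaf `u` with outgoing angle `θ` is `(θ - d u θ, θ)`.

PLAN.
(1) `t0p_cont_inverse`: fix `(x₀, θ₀)`, `a₀ = a x₀ θ₀`, `ε > 0`: `f x₀ (a₀ - ε) < θ₀ < f x₀ (a₀ + ε)`; by continuity `f x (a₀ - ε) < θ < f x (a₀ + ε)` near `(x₀, θ₀)`, hence `a₀ - ε < a x θ < a₀ + ε` (`(hm x).lt_iff_lt`).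
(2) `t0p_leaf_param`: `α ↦ (Z (α, u)).2` is continuous, strictly increasing (`t0p_graph_snd`) and onto (`|(Z (α, u)).2 - α| ≤ C` by `t0p_Z_bound {u}`, IVT: `mem_range_of_exists_le_of_exists_ge`); choose `al u θ`; (1).
(3) `t0p_gap0`: `d u θ := θ - (Z (al u θ, u)).1`.   `pos`, `lt` from `F.mem`;  uniqueness `hd` from injectivity of `α ↦ (Z (α, u)).2`;  `per` from `Z_shift` + uniqueness.
(4) injective in `u` for fixed `θ`: `Z` is injective.  So for each `θ` strictly monotone or strictly antitone (`Continuous.strictMono_of_inj`).   For the FIXED pair `u = 0, 1` the function `θ ↦ d 1 θ - d 0 θ` is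
    continuous and never `0`, hence of constant sign: the same alternative holds for all `θ`.   In the antitone case replace `d u θ` by `d (-u) θ`.
(5) `small`: `w = (θ - min ε η / 2, θ) ∈ wedge`, `F.strip`: `w = Z (α, u)`, so `d u θ = min ε η / 2` by `hd`.
(6) `inv`: let `Z (α, u) = (θ - d u θ, θ)`.  `t0_nxt_unique`: `θ' = nxt h (θ - d u θ) θ`, so `Z (G (α, u), u) = lineMap h (Z (α, u)) = (θ, θ')`, and `hd` gives `d u θ' = θ' - θ`.
(7) `t0p_collar_of_gap`.   `g b θ = pOut h (θ - d (log b) θ) θ` for `b > 0`, `g b θ = h θ` for `b ≤ 0`.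
    * `anti`: `t0_pOut_strictMonoOn hs θ` on `[θ - 2π, θ]`, `log` strictly increasing, `pOut h θ θ = h θ`.      * `periodic`: `per`, `t0_pOut_shift`.
    * `inv`: (6) (`θ' < θ + π < θ + 2π`): `g b θ' = pOut h (θ' - (θ' - θ)) θ' = pOut h θ θ'`.
    * `cont` at `(b₀, θ₀)`, `b₀ > 0`: near this point `g` is the composition of continuous functions (`continuousAt_log`), `ContinuousAt.congr`.
      At `(0, θ₀)`: let `O` be a neighbourhood of `h θ₀ = pOut h θ₀ θ₀`; `t0_continuous_pOut`: `δ > 0` with `pOut h a θ ∈ O` for `|a - θ₀| < 2δ`, `|θ - θ₀| < δ`.   `small`: `u₀` with `d u₀ θ₀ < δ`; by continuity `d u₀ θ < δ` for `θ` near `θ₀`;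
      by `mono`: `0 < d (log b) θ < δ` for `0 < b < exp u₀`;   for `b = 0`: `h θ = pOut h θ θ`.
-/
import Claimed.Agent.R269.T0p.Graph

set_option autoImplicit false

namespace Claimed.Agent.R269

open Real

variable {h : ℝ → ℝ} {Z : ℝ × ℝ → ℝ × ℝ} {G : ℝ × ℝ → ℝ}

/-- the gap function of a foliation by invariant graphs accumulating at the glancing boundary. -/
structure IsGap (h : ℝ → ℝ) (d : ℝ → ℝ → ℝ) : Prop where
  cont : Continuous fun x : ℝ × ℝ => d x.1 x.2
  pos : ∀ u θ, 0 < d u θ
  lt : ∀ u θ, d u θ < 2 * π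
  per : ∀ u θ, d u (θ + 2 * π) = d u θ
  mono : ∀ θ, StrictMono fun u => d u θ
  small : ∀ θ ε, 0 < ε → ∃ u, d u θ < ε
  inv : ∀ u θ θ', θ < θ' → θ' < θ + 2 * π → pIn h θ θ' = pOut h (θ - d u θ) θ → d u θ' = θ' - θ

/-- joint continuity of the inverse of a continuous family of strictly increasing functions. -/
theorem t0p_cont_inverse {X : Type} [TopologicalSpace X] (f : X → ℝ → ℝ) (hf : Continuous fun x : X × ℝ => f x.1 x.2)
    (hm : ∀ x, StrictMono (f x)) (a : X → ℝ → ℝ) (ha : ∀ x θ, f x (a x θ) = θ) :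
    Continuous fun y : X × ℝ => a y.1 y.2 := by
  rw [continuous_iff_continuousAt]
  rintro ⟨x₀, θ₀⟩
  have hc : ∀ t : ℝ, Continuous fun y : X × ℝ => f y.1 t - y.2 := fun t =>
    (hf.comp (continuous_fst.prodMk continuous_const)).sub continuous_snd
  refine tendsto_order.2 ⟨fun t ht => ?_, fun t ht => ?_⟩
  · have h1 : f x₀ t - θ₀ < 0 := by
      have := hm x₀ ht
      rw [ha] at this
      linarith
    have h2 : ∀ᶠ y : X × ℝ in nhds (x₀, θ₀), f y.1 t - y.2 < 0 := (hc t).continuousAt.eventually (gt_mem_nhds h1)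
    filter_upwards [h2] with y hy
    rw [← (hm y.1).lt_iff_lt, ha]
    linarith
  · have h1 : 0 < f x₀ t - θ₀ := by
      have := hm x₀ ht
      rw [ha] at this
      linarith
    have h2 : ∀ᶠ y : X × ℝ in nhds (x₀, θ₀), 0 < f y.1 t - y.2 := (hc t).continuousAt.eventually (lt_mem_nhds h1)
    filter_upwards [h2] with y hy
    rw [← (hm y.1).lt_iff_lt, ha]
    linarith

theorem t0p_leaf_param (F : LiftedFol h Z G) (hs : IsSupport h) :
    ∃ al : ℝ → ℝ → ℝ, (Continuous fun x : ℝ × ℝ => al x.1 x.2) ∧ ∀ u θ, (Z (al u θ, u)).2 = θ := by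
  have hZ := F.emb.continuous
  have hsurj : ∀ u θ, ∃ α, (Z (α, u)).2 = θ := by
    intro u θ
    obtain ⟨C, hC⟩ := t0p_Z_bound F {u} isCompact_singleton
    have hc : Continuous fun α => (Z (α, u)).2 := continuous_snd.comp (hZ.comp (continuous_id.prodMk continuous_const))
    apply mem_range_of_exists_le_of_exists_ge hc
    · refine ⟨θ - C, ?_⟩
      have := (abs_le.1 (hC u rfl (θ - C)).2).2
      linarith
    · refine ⟨θ + C, ?_⟩
      have := (abs_le.1 (hC u rfl (θ + C)).2).1
      linarith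
  choose al hal using hsurj
  refine ⟨al, ?_, hal⟩
  exact t0p_cont_inverse (fun u α => (Z (α, u)).2) (continuous_snd.comp (hZ.comp (continuous_snd.prodMk continuous_fst)))
    (fun u => t0p_graph_snd F hs u) al hal

/-- the gap function, before the normalisation of the direction. -/
theorem t0p_gap0 (F : LiftedFol h Z G) (hs : IsSupport h) :
    ∃ d : ℝ → ℝ → ℝ, (Continuous fun x : ℝ × ℝ => d x.1 x.2) ∧
      (∀ u θ, ∃ α, Z (α, u) = (θ - d u θ, θ)) ∧
      (∀ u α, d u (Z (α, u)).2 = (Z (α, u)).2 - (Z (α, u)).1) := by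
  obtain ⟨al, hc, hal⟩ := t0p_leaf_param F hs
  have hZ := F.emb.continuous
  refine ⟨fun u θ => θ - (Z (al u θ, u)).1, ?_, fun u θ => ⟨al u θ, ?_⟩, fun u α => ?_⟩
  · exact continuous_snd.sub (continuous_fst.comp (hZ.comp (hc.prodMk continuous_fst)))
  · ext
    · simp
    · exact hal u θ
  · have : al u (Z (α, u)).2 = α := (t0p_graph_snd F hs u).injective (hal u _)
    simp only [this]

theorem t0p_gap_dir (d : ℝ → ℝ → ℝ) (hc : Continuous fun x : ℝ × ℝ => d x.1 x.2)
    (hinj : ∀ θ u u', d u θ = d u' θ → u = u') :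
    (∀ θ, StrictMono fun u => d u θ) ∨ (∀ θ, StrictAnti fun u => d u θ) := by
  have hcu : ∀ θ, Continuous fun u => d u θ := fun θ => hc.comp (continuous_id.prodMk continuous_const)
  have halt : ∀ θ, StrictMono (fun u => d u θ) ∨ StrictAnti fun u => d u θ := fun θ =>
    (hcu θ).strictMono_of_inj fun u u' e => hinj θ u u' e
  set D : ℝ → ℝ := fun θ => d 1 θ - d 0 θ with hD
  have hDc : Continuous D :=
    (hc.comp (continuous_const.prodMk continuous_id)).sub (hc.comp (continuous_const.prodMk continuous_id))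
  have hD0 : ∀ θ, D θ ≠ 0 := by
    intro θ h0
    have := hinj θ 1 0 (by simp only [hD] at h0; linarith)
    norm_num at this
  rcases lt_or_gt_of_ne (hD0 0) with hneg | hpos
  · right
    intro θ
    rcases halt θ with hm | ha
    · exfalso
      have h1 : 0 < D θ := by
        have := hm (zero_lt_one : (0 : ℝ) < 1)
        simp only [hD]
        simp only at this
        linarith
      obtain ⟨s, hs⟩ := mem_range_of_exists_le_of_exists_ge hDc ⟨0, hneg.le⟩ ⟨θ, h1.le⟩
      exact hD0 s hs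
    · exact ha
  · left
    intro θ
    rcases halt θ with hm | ha
    · exact hm
    · exfalso
      have h1 : D θ < 0 := by
        have := ha (zero_lt_one : (0 : ℝ) < 1)
        simp only [hD]
        simp only at this
        linarith
      obtain ⟨s, hs⟩ := mem_range_of_exists_le_of_exists_ge hDc ⟨θ, h1.le⟩ ⟨0, hpos.le⟩
      exact hD0 s hs

theorem t0p_gap_exists (F : LiftedFol h Z G) (hs : IsSupport h) : ∃ d, IsGap h d := by
  have hπ := pi_pos
  obtain ⟨d, hc, hex, hd⟩ := t0p_gap0 F hs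
  have hpos : ∀ u θ, 0 < d u θ := by
    intro u θ
    obtain ⟨α, e⟩ := hex u θ
    have := (F.mem (α, u)).1
    rw [e] at this
    simp only at this
    linarith
  have hlt : ∀ u θ, d u θ < 2 * π := by
    intro u θ
    obtain ⟨α, e⟩ := hex u θ
    have := (F.mem (α, u)).2
    rw [e] at this
    simp only at this
    linarith
  have hper : ∀ u θ, d u (θ + 2 * π) = d u θ := by
    intro u θ
    obtain ⟨α, e⟩ := hex u θ
    have h1 := hd u (α + 2 * π)
    rw [F.Z_shift, e] at h1
    simp only [Prod.mk_add_mk] at h1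
    linarith
  have hinj : ∀ θ u u', d u θ = d u' θ → u = u' := by
    intro θ u u' e
    obtain ⟨α, e1⟩ := hex u θ
    obtain ⟨α', e2⟩ := hex u' θ
    rw [← e, ← e1] at e2
    exact (congrArg Prod.snd (F.emb.injective e2)).symm
  have hsmall : ∀ θ ε, 0 < ε → ∃ u, d u θ < ε := by
    intro θ ε hε
    obtain ⟨η, hη, hstrip⟩ := F.strip
    set m := min (min ε η) π / 2 with hm
    have hm0 : 0 < m := by
      have : 0 < min (min ε η) π := lt_min (lt_min hε hη) hπ
      linarith
    have hm1 : m < ε := by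
      have : min (min ε η) π ≤ ε := (min_le_left _ _).trans (min_le_left _ _)
      linarith
    have hm2 : m < η := by
      have : min (min ε η) π ≤ η := (min_le_left _ _).trans (min_le_right _ _)
      linarith
    have hm3 : m < 2 * π := by
      have : min (min ε η) π ≤ π := min_le_right _ _
      linarith
    obtain ⟨⟨α, u⟩, e⟩ := hstrip (θ - m, θ) ⟨by simp only; linarith, by simp only; linarith⟩ (by simp only; linarith)
    refine ⟨u, ?_⟩
    have h1 := hd u α
    rw [e] at h1
    simp only at h1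
    linarith
  have hinv : ∀ u θ θ', θ < θ' → θ' < θ + 2 * π → pIn h θ θ' = pOut h (θ - d u θ) θ → d u θ' = θ' - θ := by
    intro u θ θ' h1 h2 e
    obtain ⟨α, e1⟩ := hex u θ
    have hw : (θ - d u θ, θ) ∈ wedge := e1 ▸ F.mem (α, u)
    have h3 := t0_nxt_unique hs hw h1.le h2.le e
    have h4 := F.conj α u
    rw [e1] at h4
    simp only [lineMap, h3] at h4
    have h5 := hd u (G (α, u))
    rw [← h4] at h5
    exact h5
  rcases t0p_gap_dir d hc hinj with hm | ha
  · exact ⟨d, hc, hpos, hlt, hper, hm, hsmall, hinv⟩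
  · refine ⟨fun u θ => d (-u) θ, hc.comp (continuous_fst.neg.prodMk continuous_snd), fun u θ => hpos _ θ,
      fun u θ => hlt _ θ, fun u θ => hper _ θ, fun θ u u' huu => ha θ (neg_lt_neg huu), fun θ ε hε => ?_,
      fun u θ θ' => hinv _ θ θ'⟩
    obtain ⟨u, hu⟩ := hsmall θ ε hε
    exact ⟨-u, by simpa using hu⟩

theorem t0p_collar_of_gap (hs : IsSupport h) {d : ℝ → ℝ → ℝ} (D : IsGap h d) :
    IsPhaseCollar h (fun b θ => if 0 < b then pOut h (θ - d (log b) θ) θ else h θ) := by
  have hπ := pi_pos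
  refine ⟨?_, fun θ => by simp, ?_, ?_, ?_⟩
  · rintro ⟨b₀, θ₀⟩ ⟨hb₀, -⟩
    rcases hb₀.1.lt_or_eq with hb | hb
    · apply ContinuousAt.continuousWithinAt
      have h1 : ContinuousAt (fun x : ℝ × ℝ => pOut h (x.2 - d (log x.1) x.2) x.2) (b₀, θ₀) := by
        have c1 : ContinuousAt (fun x : ℝ × ℝ => log x.1) (b₀, θ₀) :=
          ContinuousAt.comp (f := Prod.fst) (g := log) (continuousAt_log hb.ne') continuousAt_fst
        have c2 : ContinuousAt (fun x : ℝ × ℝ => d (log x.1) x.2) (b₀, θ₀) :=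
          ContinuousAt.comp (f := fun x : ℝ × ℝ => (log x.1, x.2)) (g := fun x : ℝ × ℝ => d x.1 x.2)
            D.cont.continuousAt (c1.prodMk continuousAt_snd)
        exact ContinuousAt.comp (f := fun x : ℝ × ℝ => (x.2 - d (log x.1) x.2, x.2))
          (g := fun x : ℝ × ℝ => pOut h x.1 x.2) (t0_continuous_pOut hs).continuousAt
          ((continuousAt_snd.sub c2).prodMk continuousAt_snd)
      refine h1.congr ?_
      have h2 : ∀ᶠ x : ℝ × ℝ in nhds (b₀, θ₀), 0 < x.1 := continuousAt_fst.eventually (lt_mem_nhds hb)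
      filter_upwards [h2] with x hx
      simp only [if_pos hx]
    · subst hb
      rw [Metric.continuousWithinAt_iff]
      intro ε hε
      simp only [lt_irrefl, if_false]
      obtain ⟨δ₁, hδ₁, H₁⟩ := Metric.continuousAt_iff.1 ((t0_continuous_pOut hs).continuousAt (x := (θ₀, θ₀))) ε hε
      simp only [t0_pOut_self] at H₁
      obtain ⟨u₀, hu₀⟩ := D.small θ₀ (δ₁ / 2) (by linarith)
      have hcθ : Continuous fun θ => d u₀ θ := D.cont.comp (continuous_const.prodMk continuous_id)
      have hev : ∀ᶠ θ in nhds θ₀, d u₀ θ < δ₁ / 2 := hcθ.continuousAt.eventually (gt_mem_nhds hu₀)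
      obtain ⟨δ₂, hδ₂, H₂⟩ := Metric.eventually_nhds_iff.1 hev
      refine ⟨min (min (δ₁ / 2) δ₂) (exp u₀), lt_min (lt_min (by linarith) hδ₂) (exp_pos _), ?_⟩
      rintro ⟨b, θ⟩ ⟨hbI, -⟩ hdist
      rw [Prod.dist_eq, max_lt_iff] at hdist
      obtain ⟨hd1, hd2⟩ := hdist
      simp only at hd1 hd2 hbI
      have hθ1 : dist θ θ₀ < δ₁ / 2 := hd2.trans_le ((min_le_left _ _).trans (min_le_left _ _))
      have hθ2 : dist θ θ₀ < δ₂ := hd2.trans_le ((min_le_left _ _).trans (min_le_right _ _))
      have hb1 : b < exp u₀ := by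
        have := hd1.trans_le (min_le_right _ _)
        rw [Real.dist_eq, sub_zero] at this
        exact (le_abs_self b).trans_lt this
      simp only
      split_ifs with hb
      · apply @H₁ (θ - d (log b) θ, θ)
        rw [Prod.dist_eq, max_lt_iff]
        simp only
        have h3 : log b < u₀ := by rwa [log_lt_iff_lt_exp hb]
        have h4 : d (log b) θ < δ₁ / 2 := (D.mono θ h3).trans (H₂ hθ2)
        have h5 := D.pos (log b) θ
        rw [Real.dist_eq] at hθ1 ⊢
        constructor
        · rw [abs_lt] at hθ1 ⊢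
          constructor <;> linarith [hθ1.1, hθ1.2]
        · rw [Real.dist_eq]
          linarith
      · have := @H₁ (θ, θ) (by
          rw [Prod.dist_eq, max_lt_iff]
          simp only
          constructor <;> linarith)
        simpa [t0_pOut_self] using this
  · intro b _ θ
    simp only
    split_ifs with hb
    · rw [D.per]
      have e : θ + 2 * π - d (log b) θ = θ - d (log b) θ + 2 * π := by ring
      rw [e, t0_pOut_shift hs]
    · exact hs.periodic θ
  · intro θ b hb b' hb' hbb
    have hb'0 : 0 < b' := lt_of_le_of_lt hb.1 hbb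
    simp only [if_pos hb'0]
    have p1 := D.pos (log b') θ
    have p2 := D.lt (log b') θ
    split_ifs with hb0
    · have h1 : d (log b) θ < d (log b') θ := D.mono θ (log_lt_log hb0 hbb)
      have q1 := D.pos (log b) θ
      exact t0_pOut_strictMonoOn hs θ ⟨by linarith, by linarith⟩ ⟨by linarith, by linarith⟩ (by linarith)
    · exact t0_pOut_lt hs (by linarith) (by linarith)
  · intro b hb θ θ' h1 h2 e
    simp only [if_pos hb.1] at e ⊢
    rw [D.inv (log b) θ θ' h1 (by linarith) e]
    congr 1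
    ring

/-- **the phase collar of a lifted foliation.** -/
theorem t0p_collar (F : LiftedFol h Z G) (hs : IsSupport h) : ∃ g, IsPhaseCollar h g := by
  obtain ⟨d, D⟩ := t0p_gap_exists F hs
  exact ⟨_, t0p_collar_of_gap hs D⟩

end Claimed.Agent.R269
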